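import Vale.Agent.P205F.GoodAlg.Im

/-!
# P205, every closed surface: the four equations of the adjoint system

`ν₁ = cross(f_x, f_y, f_yy)` kills the tangents and `f_yy`, so `⟪Adj f W, ν₁⟫ = k W₀ + D W₁`.
-/

namespace Vale.Agent.P205F

open scoped ContDiff RealInnerProductSpace

/-- Scalar functions of maps and points. -/
abbrev SF : Type := (E2 → R4) → E2 → ℝ

section Pd

variable {X : Type*} [NormedAddCommGroup X] [NormedSpace ℝ X] {u v : E2 → X} {a b : E2 → ℝ}

theorem pd_add (hu : ContDiff ℝ ∞ u) (hv : ContDiff ℝ ∞ v) (i : Fin 2) (x : E2) :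
    pd i (fun z => u z + v z) x = pd i u x + pd i v x := by
  simp [pd, fderiv_fun_add (hu.differentiable (by simp) x) (hv.differentiable (by simp) x)]

theorem pd_sub (hu : ContDiff ℝ ∞ u) (hv : ContDiff ℝ ∞ v) (i : Fin 2) (x : E2) :
    pd i (fun z => u z - v z) x = pd i u x - pd i v x := by
  simp [pd, fderiv_fun_sub (hu.differentiable (by simp) x) (hv.differentiable (by simp) x)]

theorem pd_smul (ha : ContDiff ℝ ∞ a) (hu : ContDiff ℝ ∞ u) (i : Fin 2) (x : E2) :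
    pd i (fun z => a z • u z) x = pd i a x • u x + a x • pd i u x := by
  simp [pd, fderiv_fun_smul (ha.differentiable (by simp) x) (hu.differentiable (by simp) x),
    add_comm]

theorem pd_mul (ha : ContDiff ℝ ∞ a) (hb : ContDiff ℝ ∞ b) (i : Fin 2) (x : E2) :
    pd i (fun z => a z * b z) x = pd i a x * b x + a x * pd i b x := by
  simpa [smul_eq_mul] using pd_smul ha hb i x

theorem pd_const_mul (c : ℝ) (ha : ContDiff ℝ ∞ a) (i : Fin 2) (x : E2) :
    pd i (fun z => c * a z) x = c * pd i a x := by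
  simp [pd, fderiv_const_mul (ha.differentiable (by simp) x) c]

theorem pd_comm {f : E2 → X} (hf : ContDiff ℝ ∞ f) (i j : Fin 2) (x : E2) :
    pd i (pd j f) x = pd j (pd i f) x := by
  have h : ContDiffAt ℝ 2 f x := (hf.of_le (WithTop.coe_le_coe.2 le_top)).contDiffAt
  have hd : DifferentiableAt ℝ (fderiv ℝ f) x :=
    ((hf.fderiv_right (m := ∞) (by exact_mod_cast le_top)).differentiable (by simp)) x
  unfold pd
  rw [fderiv_clm_apply hd (differentiableAt_const _),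
    fderiv_clm_apply hd (differentiableAt_const _)]
  simpa using (h.isSymmSndFDerivAt (by simp)).eq (ev i) (ev j)

end Pd

/-- The vector product of three vectors: `⟪cross u v w, z⟫` is a determinant. -/
noncomputable def cross (u v w : R4) : R4 :=
  !₂[u 1 * (v 2 * w 3 - v 3 * w 2) - u 2 * (v 1 * w 3 - v 3 * w 1) + u 3 * (v 1 * w 2 - v 2 * w 1),
    -(u 0 * (v 2 * w 3 - v 3 * w 2) - u 2 * (v 0 * w 3 - v 3 * w 0) + u 3 * (v 0 * w 2 - v 2 * w 0)),
    u 0 * (v 1 * w 3 - v 3 * w 1) - u 1 * (v 0 * w 3 - v 3 * w 0) + u 3 * (v 0 * w 1 - v 1 * w 0),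
    -(u 0 * (v 1 * w 2 - v 2 * w 1) - u 1 * (v 0 * w 2 - v 2 * w 0) + u 2 * (v 0 * w 1 - v 1 * w 0))]

theorem inner_R4 (u v : R4) : ⟪u, v⟫ = u 0 * v 0 + u 1 * v 1 + u 2 * v 2 + u 3 * v 3 := by
  simp [PiLp.inner_apply, Fin.sum_univ_four, mul_comm]

theorem cross_orth_left (u v w : R4) : ⟪cross u v w, u⟫ = 0 := by
  simp [inner_R4, cross]; ring

theorem cross_orth_mid (u v w : R4) : ⟪cross u v w, v⟫ = 0 := by
  simp [inner_R4, cross]; ring

theorem cross_orth_right (u v w : R4) : ⟪cross u v w, w⟫ = 0 := by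
  simp [inner_R4, cross]; ring

theorem cross_swap (u v w z : R4) : ⟪cross u v w, z⟫ = -⟪cross u v z, w⟫ := by
  simp [inner_R4, cross]; ring

theorem JetFn.coord {c : (E2 → R4) → E2 → R4} (h : JetFn c) (i : Fin 4) :
    JetFn fun f x => c f x i :=
  h.clm (EuclideanSpace.proj i)

theorem JetFn.vec4 {a b c d : SF} (ha : JetFn a) (hb : JetFn b) (hc : JetFn c) (hd : JetFn d) :
    JetFn fun f x => (!₂[a f x, b f x, c f x, d f x] : R4) := by
  refine ((((ha.smul (JetFn.const (EuclideanSpace.single (0 : Fin 4) (1 : ℝ) : R4))).add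
    (hb.smul (JetFn.const (EuclideanSpace.single (1 : Fin 4) (1 : ℝ) : R4)))).add
    (hc.smul (JetFn.const (EuclideanSpace.single (2 : Fin 4) (1 : ℝ) : R4)))).add
    (hd.smul (JetFn.const (EuclideanSpace.single (3 : Fin 4) (1 : ℝ) : R4)))).congr fun f x _ => ?_
  ext i
  fin_cases i <;> simp

theorem JetFn.cross {a b c : (E2 → R4) → E2 → R4} (ha : JetFn a) (hb : JetFn b) (hc : JetFn c) :
    JetFn fun f x => P205F.cross (a f x) (b f x) (c f x) := by
  have A := fun i => ha.coord i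
  have B := fun i => hb.coord i
  have C := fun i => hc.coord i
  have m : ∀ i j : Fin 4, JetFn fun f x => b f x i * c f x j - b f x j * c f x i := fun i j =>
    ((B i).mul (C j)).sub ((B j).mul (C i))
  exact JetFn.vec4 ((((A 1).mul (m 2 3)).sub ((A 2).mul (m 1 3))).add ((A 3).mul (m 1 2)))
    ((((A 0).mul (m 2 3)).sub ((A 2).mul (m 0 3))).add ((A 3).mul (m 0 2))).neg
    ((((A 0).mul (m 1 3)).sub ((A 1).mul (m 0 3))).add ((A 3).mul (m 0 1)))
    ((((A 0).mul (m 1 2)).sub ((A 1).mul (m 0 2))).add ((A 2).mul (m 0 1))).neg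

section Data

variable (f : E2 → R4) (x : E2)

/-- Second derivatives. -/
noncomputable def fxx : R4 := pd 0 (pd 0 f) x
/-- Second derivatives. -/
noncomputable def fxy : R4 := pd 0 (pd 1 f) x
/-- Second derivatives. -/
noncomputable def fyy : R4 := pd 1 (pd 1 f) x
/-- The normal that is orthogonal to `f_yy`. -/
noncomputable def nu1 : R4 := cross (pd 0 f x) (pd 1 f x) (fyy f x)
/-- The other normal. -/
noncomputable def nu2 : R4 := cross (pd 0 f x) (pd 1 f x) (nu1 f x)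
/-- `II_{ν₁}(xx)`. -/
noncomputable def kk : ℝ := ⟪fxx f x, nu1 f x⟫
/-- `2 II_{ν₁}(xy)`. -/
noncomputable def DD : ℝ := 2 * ⟪fxy f x, nu1 f x⟫
/-- `II_{ν₂}(xx)`. -/
noncomputable def dd : ℝ := ⟪fxx f x, nu2 f x⟫
/-- `II_{ν₂}(xy)`. -/
noncomputable def cc : ℝ := ⟪fxy f x, nu2 f x⟫
/-- `II_{ν₂}(yy)`. -/
noncomputable def bb : ℝ := ⟪fyy f x, nu2 f x⟫
/-- Metric components and determinant. -/
noncomputable def gdet : ℝ :=
  ⟪pd 0 f x, pd 0 f x⟫ * ⟪pd 1 f x, pd 1 f x⟫ - ⟪pd 0 f x, pd 1 f x⟫ ^ 2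
/-- Dual tangent vectors times `gdet`. -/
noncomputable def tanv : Fin 2 → R4 :=
  ![⟪pd 1 f x, pd 1 f x⟫ • pd 0 f x - ⟪pd 0 f x, pd 1 f x⟫ • pd 1 f x,
    ⟪pd 0 f x, pd 0 f x⟫ • pd 1 f x - ⟪pd 0 f x, pd 1 f x⟫ • pd 0 f x]
/-- Connection coefficients times `gdet`, with the symmetric factor two. -/
noncomputable def gam (i : Fin 2) : Fin 3 → ℝ :=
  ![⟪tanv f x i, fxx f x⟫, 2 * ⟪tanv f x i, fxy f x⟫, ⟪tanv f x i, fyy f x⟫]

end Data

theorem JetFn.fxx : JetFn fun f x => P205F.fxx f x := (JetFn.pd_self 0).pd 0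
theorem JetFn.fxy : JetFn fun f x => P205F.fxy f x := (JetFn.pd_self 1).pd 0
theorem JetFn.fyy : JetFn fun f x => P205F.fyy f x := (JetFn.pd_self 1).pd 1
theorem JetFn.nu1 : JetFn fun f x => P205F.nu1 f x :=
  JetFn.cross (JetFn.pd_self 0) (JetFn.pd_self 1) JetFn.fyy
theorem JetFn.nu2 : JetFn fun f x => P205F.nu2 f x :=
  JetFn.cross (JetFn.pd_self 0) (JetFn.pd_self 1) JetFn.nu1
theorem JetFn.kk : JetFn P205F.kk := JetFn.fxx.inner JetFn.nu1
theorem JetFn.DD : JetFn P205F.DD := (JetFn.const (2 : ℝ)).mul (JetFn.fxy.inner JetFn.nu1)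
theorem JetFn.dd : JetFn P205F.dd := JetFn.fxx.inner JetFn.nu2
theorem JetFn.cc : JetFn P205F.cc := JetFn.fxy.inner JetFn.nu2
theorem JetFn.bb : JetFn P205F.bb := JetFn.fyy.inner JetFn.nu2

theorem JetFn.gdet : JetFn P205F.gdet :=
  ((((JetFn.pd_self 0).inner (JetFn.pd_self 0)).mul
    ((JetFn.pd_self 1).inner (JetFn.pd_self 1))).sub
    (((JetFn.pd_self 0).inner (JetFn.pd_self 1)).mul
      ((JetFn.pd_self 0).inner (JetFn.pd_self 1)))).congr fun f x _ => by
    simp [P205F.gdet, pow_two]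

theorem JetFn.tanv (i : Fin 2) : JetFn fun f x => P205F.tanv f x i := by
  have g := fun a b : Fin 2 => (JetFn.pd_self a).inner (JetFn.pd_self b)
  fin_cases i
  · exact ((g 1 1).smul (JetFn.pd_self 0)).sub ((g 0 1).smul (JetFn.pd_self 1))
  · exact ((g 0 0).smul (JetFn.pd_self 1)).sub ((g 0 1).smul (JetFn.pd_self 0))

theorem JetFn.gam (i : Fin 2) (j : Fin 3) : JetFn fun f x => P205F.gam f x i j := by
  fin_cases j
  · exact (JetFn.tanv i).inner JetFn.fxx
  · exact (JetFn.const (2 : ℝ)).mul ((JetFn.tanv i).inner JetFn.fxy)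
  · exact (JetFn.tanv i).inner JetFn.fyy

/-- The residual, expanded. -/
theorem Adj_eq {f : E2 → R4} {W : E2 → S3} (hf : ContDiff ℝ ∞ f) (hW : ContDiff ℝ ∞ W) (x : E2) :
    Adj f W x = (pd 0 (fun z => W z 0) x + pd 1 (fun z => W z 1) x) • pd 0 f x
      + (pd 0 (fun z => W z 1) x + pd 1 (fun z => W z 2) x) • pd 1 f x
      + W x 0 • fxx f x + (2 * W x 1) • fxy f x + W x 2 • fyy f x := by
  have w : ∀ j, ContDiff ℝ ∞ fun z => W z j := contDiff_pi.1 hW
  have p : ∀ j, ContDiff ℝ ∞ (pd j f) := contDiff_pd hf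
  unfold Adj
  have s₀ : ∀ i j, ContDiff ℝ ∞ fun z => W z i • pd j f z := fun i j => (w i).smul (p j)
  rw [pd_add (s₀ 0 0) (s₀ 1 1), pd_add (s₀ 1 0) (s₀ 2 1),
    pd_smul (w 0) (p 0), pd_smul (w 1) (p 1), pd_smul (w 1) (p 0), pd_smul (w 2) (p 1),
    pd_comm hf 1 0 x]
  simp only [fxx, fxy, fyy]
  module

/-- The inner product of the residual with a jet vector. -/
theorem inIm_inner {v : (E2 → R4) → E2 → R4} (hv : JetFn v) :
    InIm fun f W x => ⟪v f x, Adj f W x⟫ :=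
  (InIm.adj.clmFn (hv.clm (innerSL ℝ))).congr fun _ _ _ _ _ => rfl

/-- Normal equation along `ν₁`. -/
theorem eq_nu1 : InIm fun f W x => kk f x * W x 0 + DD f x * W x 1 := by
  refine (inIm_inner JetFn.nu1).congr fun f W hf hW x => ?_
  simp only [Adj_eq hf hW, inner_add_right, inner_smul_right, nu1, cross_orth_left, cross_orth_mid,
    cross_orth_right]
  simp only [kk, DD, nu1, real_inner_comm (cross _ _ _)]
  ring

/-- Normal equation along `ν₂`. -/
theorem eq_nu2 : InIm fun f W x => dd f x * W x 0 + 2 * cc f x * W x 1 + bb f x * W x 2 := by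
  refine (inIm_inner JetFn.nu2).congr fun f W hf hW x => ?_
  simp only [Adj_eq hf hW, inner_add_right, inner_smul_right, nu2, cross_orth_left, cross_orth_mid]
  simp only [dd, cc, bb, nu2, real_inner_comm (cross _ _ _)]
  ring

theorem inner_tanv (f : E2 → R4) (x : E2) :
    ⟪tanv f x 0, pd 0 f x⟫ = gdet f x ∧ ⟪tanv f x 0, pd 1 f x⟫ = 0 ∧
      ⟪tanv f x 1, pd 0 f x⟫ = 0 ∧ ⟪tanv f x 1, pd 1 f x⟫ = gdet f x := by
  refine ⟨?_, ?_, ?_, ?_⟩ <;>
  simp [tanv, gdet, inner_sub_left, inner_smul_left, real_inner_comm (pd 0 f x) (pd 1 f x)] <;>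
  ring

/-- The two tangential equations. -/
theorem eq_tan (i : Fin 2) : InIm fun f W x =>
    gdet f x * (if i = 0 then pd 0 (fun z => W z 0) x + pd 1 (fun z => W z 1) x
      else pd 0 (fun z => W z 1) x + pd 1 (fun z => W z 2) x)
      + gam f x i 0 * W x 0 + gam f x i 1 * W x 1 + gam f x i 2 * W x 2 := by
  refine (inIm_inner (JetFn.tanv i)).congr fun f W hf hW x => ?_
  obtain ⟨a, b, c, d⟩ := inner_tanv f x
  fin_cases i <;>
  · simp [Adj_eq hf hW, inner_add_right, inner_smul_right, gam, a, b, c, d]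
    ring

end Vale.Agent.P205F
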