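import Vale.Agent.P205F.GoodAlg.CovJets
import Vale.Agent.P205F.GoodAlg.Base
import Vale.Agent.P205F.InterfacesTwist
import Vale.Agent.P205F.Chart.Basic

/-!
# P205, every closed surface: goodness does not depend on the coordinates
-/

set_option maxSynthPendingDepth 3

namespace Vale.Agent.P205F

open scoped Manifold ContDiff RealInnerProductSpace Topology

/-- `B W Bᵀ` for `B = [[a, b], [c, d]]`. -/
def congrS (a b c d : ℝ) (W : S3) : S3 :=
  ![a * a * W 0 + 2 * (a * b) * W 1 + b * b * W 2,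
    a * c * W 0 + (a * d + b * c) * W 1 + b * d * W 2,
    c * c * W 0 + 2 * (c * d) * W 1 + d * d * W 2]

/-- `congrS` as a linear map. -/
noncomputable def congrSL (a b c d : ℝ) : S3 →L[ℝ] S3 :=
  LinearMap.toContinuousLinearMap
    { toFun := congrS a b c d
      map_add' := fun W W' => by
        funext j; fin_cases j <;> simp [congrS] <;> ring
      map_smul' := fun r W => by
        funext j; fin_cases j <;> simp [congrS] <;> ring }

@[simp] theorem congrSL_apply (a b c d : ℝ) (W : S3) : congrSL a b c d W = congrS a b c d W := rfl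

theorem congrS_adj (a b c d : ℝ) (W : S3) :
    congrS a b c d (congrS d (-b) (-c) a W) = (a * d - b * c) ^ 2 • W := by
  funext j
  fin_cases j <;> simp [congrS] <;> ring

/-- Entries of the differential. -/
noncomputable def jac (σ : E2 → E2) (m i : Fin 2) (u : E2) : ℝ := pd i (fun z => σ z m) u

/-- Jacobian determinant. -/
noncomputable def jdet (σ : E2 → E2) (u : E2) : ℝ :=
  jac σ 0 0 u * jac σ 1 1 u - jac σ 0 1 u * jac σ 1 0 u

theorem contDiff_coord {σ : E2 → E2} (hσ : ContDiff ℝ ∞ σ) (m : Fin 2) :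
    ContDiff ℝ ∞ fun z => σ z m :=
  (EuclideanSpace.proj (𝕜 := ℝ) m).contDiff.comp hσ

theorem contDiff_jdet {σ : E2 → E2} (hσ : ContDiff ℝ ∞ σ) : ContDiff ℝ ∞ (jdet σ) :=
  ((contDiff_pd (contDiff_coord hσ 0) 0).mul (contDiff_pd (contDiff_coord hσ 1) 1)).sub
    ((contDiff_pd (contDiff_coord hσ 0) 1).mul (contDiff_pd (contDiff_coord hσ 1) 0))

theorem pd_comp_plane {X : Type*} [NormedAddCommGroup X] [NormedSpace ℝ X] {g : E2 → X}
    {σ : E2 → E2} (hg : ContDiff ℝ ∞ g) (hσ : ContDiff ℝ ∞ σ) (i : Fin 2) (u : E2) :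
    pd i (fun z => g (σ z)) u = jac σ 0 i u • pd 0 g (σ u) + jac σ 1 i u • pd 1 g (σ u) := by
  have hd : DifferentiableAt ℝ σ u := hσ.differentiable (by simp) u
  have e : ∀ m : Fin 2, jac σ m i u = fderiv ℝ σ u (ev i) m := fun m => by
    show fderiv ℝ ((EuclideanSpace.proj (𝕜 := ℝ) m) ∘ σ) u (ev i) = _
    rw [fderiv_comp u (EuclideanSpace.proj (𝕜 := ℝ) m).differentiableAt hd,
      ContinuousLinearMap.fderiv]
    rfl
  have hv : fderiv ℝ σ u (ev i) =
      fderiv ℝ σ u (ev i) 0 • ev 0 + fderiv ℝ σ u (ev i) 1 • ev 1 := by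
    ext j
    fin_cases j <;> simp [ev]
  rw [e, e]
  show fderiv ℝ (g ∘ σ) u (ev i) = _
  rw [fderiv_comp u (hg.differentiable (by simp) _) hd, ContinuousLinearMap.comp_apply]
  conv_lhs => rw [hv]
  rw [map_add, map_smul, map_smul]
  rfl

/-- The pulled back tensor density, with `c` in place of `1/det`. -/
noncomputable def pullW (σ : E2 → E2) (c : E2 → ℝ) (W : E2 → S3) (u : E2) : S3 :=
  c u • congrS (jac σ 1 1 u) (-(jac σ 0 1 u)) (-(jac σ 1 0 u)) (jac σ 0 0 u) (W (σ u))

theorem contDiff_pullW {σ : E2 → E2} {c : E2 → ℝ} {W : E2 → S3} (hσ : ContDiff ℝ ∞ σ)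
    (hc : ContDiff ℝ ∞ c) (hW : ContDiff ℝ ∞ W) : ContDiff ℝ ∞ (pullW σ c W) := by
  have j : ∀ m i, ContDiff ℝ ∞ (jac σ m i) := fun m i => contDiff_pd (contDiff_coord hσ m) i
  have w : ∀ k, ContDiff ℝ ∞ fun u => W (σ u) k := fun k => (contDiff_pi.1 hW k).comp hσ
  refine hc.smul (contDiff_pi.2 fun k => ?_)
  fin_cases k
  · exact ((((j 1 1).mul (j 1 1)).mul (w 0)).add
      ((contDiff_const.mul ((j 1 1).mul (j 0 1).neg)).mul (w 1))).add
      (((j 0 1).neg.mul (j 0 1).neg).mul (w 2))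
  · exact ((((j 1 1).mul (j 1 0).neg).mul (w 0)).add
      ((((j 1 1).mul (j 0 0)).add ((j 0 1).neg.mul (j 1 0).neg)).mul (w 1))).add
      (((j 0 1).neg.mul (j 0 0)).mul (w 2))
  · exact ((((j 1 0).neg.mul (j 1 0).neg).mul (w 0)).add
      ((contDiff_const.mul ((j 1 0).neg.mul (j 0 0))).mul (w 1))).add
      (((j 0 0).mul (j 0 0)).mul (w 2))

/-- The residual is a vector density (Piola). -/
theorem Adj_comp {σ : E2 → E2} {c : E2 → ℝ} {f : E2 → R4} {W : E2 → S3} {u : E2}
    (hσ : ContDiff ℝ ∞ σ) (hf : ContDiff ℝ ∞ f) (hW : ContDiff ℝ ∞ W)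
    (h : ∀ᶠ z in 𝓝 u, c z * jdet σ z = 1) :
    Adj (fun z => f (σ z)) (pullW σ c W) u = jdet σ u • Adj f W (σ u) := by
  have w : ∀ k, ContDiff ℝ ∞ fun z => W z k := contDiff_pi.1 hW
  have j : ∀ m i, ContDiff ℝ ∞ (jac σ m i) := fun m i => contDiff_pd (contDiff_coord hσ m) i
  set V₀ : E2 → R4 := fun z => W z 0 • pd 0 f z + W z 1 • pd 1 f z with hV₀
  set V₁ : E2 → R4 := fun z => W z 1 • pd 0 f z + W z 2 • pd 1 f z with hV₁
  have v₀ : ContDiff ℝ ∞ V₀ := ((w 0).smul (contDiff_pd hf 0)).add ((w 1).smul (contDiff_pd hf 1))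
  have v₁ : ContDiff ℝ ∞ V₁ := ((w 1).smul (contDiff_pd hf 0)).add ((w 2).smul (contDiff_pd hf 1))
  have e₀ : (fun z => pullW σ c W z 0 • pd 0 (fun z => f (σ z)) z
      + pullW σ c W z 1 • pd 1 (fun z => f (σ z)) z) =ᶠ[𝓝 u]
      fun z => jac σ 1 1 z • V₀ (σ z) - jac σ 0 1 z • V₁ (σ z) := by
    filter_upwards [h] with z hz
    have hz' : c z * (jac σ 0 0 z * jac σ 1 1 z - jac σ 0 1 z * jac σ 1 0 z) = 1 := hz
    rw [pd_comp_plane hf hσ, pd_comp_plane hf hσ]
    simp only [pullW, congrS, hV₀, hV₁, Pi.smul_apply, Matrix.cons_val_zero, Matrix.cons_val_one,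
      smul_eq_mul]
    match_scalars
    · linear_combination
        (jac σ 1 1 z * W (σ z) 0 - jac σ 0 1 z * W (σ z) 1) * hz'
    · linear_combination
        (jac σ 1 1 z * W (σ z) 1 - jac σ 0 1 z * W (σ z) 2) * hz'
  have e₁ : (fun z => pullW σ c W z 1 • pd 0 (fun z => f (σ z)) z
      + pullW σ c W z 2 • pd 1 (fun z => f (σ z)) z) =ᶠ[𝓝 u]
      fun z => jac σ 0 0 z • V₁ (σ z) - jac σ 1 0 z • V₀ (σ z) := by
    filter_upwards [h] with z hz
    have hz' : c z * (jac σ 0 0 z * jac σ 1 1 z - jac σ 0 1 z * jac σ 1 0 z) = 1 := hz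
    rw [pd_comp_plane hf hσ, pd_comp_plane hf hσ]
    simp only [pullW, congrS, hV₀, hV₁, Pi.smul_apply, Matrix.cons_val_zero, Matrix.cons_val_one,
      Matrix.cons_val, smul_eq_mul]
    match_scalars
    · linear_combination
        (jac σ 0 0 z * W (σ z) 1 - jac σ 1 0 z * W (σ z) 0) * hz'
    · linear_combination
        (jac σ 0 0 z * W (σ z) 2 - jac σ 1 0 z * W (σ z) 1) * hz'
  have c₀ : ∀ m, pd 0 (jac σ m 1) u = pd 1 (jac σ m 0) u := fun m =>
    pd_comm (contDiff_coord hσ m) 0 1 u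
  unfold Adj
  refine (congrArg₂ (· + ·) (congrArg (fun A : E2 →L[ℝ] R4 => A (ev 0)) e₀.fderiv_eq)
    (congrArg (fun A : E2 →L[ℝ] R4 => A (ev 1)) e₁.fderiv_eq)).trans ?_
  show pd 0 (fun z => jac σ 1 1 z • V₀ (σ z) - jac σ 0 1 z • V₁ (σ z)) u
    + pd 1 (fun z => jac σ 0 0 z • V₁ (σ z) - jac σ 1 0 z • V₀ (σ z)) u
    = jdet σ u • (pd 0 V₀ (σ u) + pd 1 V₁ (σ u))
  have w₀ : ContDiff ℝ ∞ fun z => V₀ (σ z) := v₀.comp hσ
  have w₁ : ContDiff ℝ ∞ fun z => V₁ (σ z) := v₁.comp hσ
  have t : ∀ m i, ∀ (V : E2 → R4), ContDiff ℝ ∞ V →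
      ContDiff ℝ ∞ fun z => jac σ m i z • V (σ z) := fun m i V hV => (j m i).smul (hV.comp hσ)
  rw [pd_sub (t 1 1 V₀ v₀) (t 0 1 V₁ v₁), pd_sub (t 0 0 V₁ v₁) (t 1 0 V₀ v₀),
    pd_smul (j 1 1) w₀, pd_smul (j 0 1) w₁, pd_smul (j 0 0) w₁, pd_smul (j 1 0) w₀,
    pd_comp_plane v₀ hσ, pd_comp_plane v₁ hσ, pd_comp_plane v₁ hσ, pd_comp_plane v₀ hσ, c₀ 1, c₀ 0]
  simp only [jdet]
  module

/-- Composition with a temperate function of a space of values. -/
theorem JetFn.comp {X Y : Type*} [NormedAddCommGroup X] [NormedSpace ℝ X] [NormedAddCommGroup Y]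
    [NormedSpace ℝ Y] {c : (E2 → R4) → E2 → X} (h : JetFn c) {g : X → Y}
    (hg : Function.HasTemperateGrowth g) : JetFn fun f x => g (c f x) :=
  let ⟨N, g₀, hg₀, e⟩ := h
  ⟨N, g ∘ g₀, hg.comp hg₀, fun f x hf => by simp [e f x hf]⟩

theorem JetFn.sum {ι : Type*} {X : Type*} [NormedAddCommGroup X] [NormedSpace ℝ X] (s : Finset ι)
    {c : ι → (E2 → R4) → E2 → X} (h : ∀ i ∈ s, JetFn (c i)) :
    JetFn fun f x => ∑ i ∈ s, c i f x := by
  classical
  induction s using Finset.induction_on with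
  | empty => simpa using JetFn.const (0 : X)
  | insert a s ha ih =>
    simp only [Finset.sum_insert ha]
    exact (h a (Finset.mem_insert_self a s)).add
      (ih fun i hi => h i (Finset.mem_insert_of_mem hi))

theorem jetFn_iterated (j : ℕ) : JetFn fun f x => iteratedFDeriv ℝ j f x :=
  ⟨j, fun z => z (Fin.last j), (ContinuousLinearMap.proj (R := ℝ)
    (φ := fun k : Fin (j + 1) => ContinuousMultilinearMap ℝ (fun _ : Fin (k : ℕ) => E2) R4)
    (Fin.last j)).hasTemperateGrowth, fun _ _ _ => rfl⟩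

theorem inIm_iterated (j : ℕ) :
    InIm fun f W x => iteratedFDeriv ℝ j (Adj f W) x := by
  refine ⟨0, j + 1, fun k _ => if h : k = j then by
      subst h
      exact ContinuousLinearMap.id ℝ _
    else 0, fun k => .const _, fun f W _ _ x => ?_⟩
  rw [opVal, Finset.sum_eq_single j (fun k _ hk => by simp [hk]) (by simp)]
  simp

/-- Transfer of an identity along a change of coordinates. -/
theorem Ident.exists_change (I : Ident) {σ : E2 → E2} (hσ : ContDiff ℝ ∞ σ) {y : E2}
    (hdet : jdet σ y ≠ 0) : ∃ I' : Ident, ∀ f : E2 → R4, ContDiff ℝ ∞ f →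
      I'.den (jet I'.N f (σ y)) = I.den (jet I.N (fun z => f (σ z)) y) ^ 2 := by
  -- coordinates centred at the two points
  set P : E2 → E2 := fun u => σ (y + u) - σ y with hP
  have sP : ContDiff ℝ ∞ P := (hσ.comp (contDiff_const.add contDiff_id)).sub contDiff_const
  have hP0 : P 0 = 0 := by simp [hP]
  have jP : ∀ m i u, jac P m i u = jac σ m i (y + u) := fun m i u => by
    show fderiv ℝ (fun z => σ (y + z) m - σ y m) u (ev i) = _
    rw [fderiv_sub_const]
    exact congrArg (fun A : E2 →L[ℝ] ℝ => A (ev i))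
      (fderiv_comp_add_left (f := fun w : E2 => σ w m) (x := u) y)
  have dP : jdet P 0 = jdet σ y := by simp [jdet, jP]
  set t₀ := jdet σ y with ht₀
  have habs : 0 < |t₀| := abs_pos.2 hdet
  let β : ContDiffBump (0 : ℝ) :=
    ⟨|t₀| / 4, |t₀| / 2, by positivity, by linarith⟩
  have hden : ∀ t : ℝ, t ^ 2 + β t ≠ 0 := fun t => by
    by_cases ht : t = 0
    · subst ht; simp [β.one_of_mem_closedBall (Metric.mem_closedBall_self β.rIn_pos.le)]
    · have := β.nonneg' t; positivity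
  set c : E2 → ℝ := fun u => jdet P u / (jdet P u ^ 2 + β (jdet P u)) with hc
  have sc : ContDiff ℝ ∞ c :=
    (contDiff_jdet sP).div (((contDiff_jdet sP).pow 2).add (β.contDiff.comp (contDiff_jdet sP)))
      fun u => hden _
  have hc1 : ∀ᶠ u in 𝓝 (0 : E2), c u * jdet P u = 1 := by
    have : ∀ᶠ u in 𝓝 (0 : E2), |t₀| / 2 < |jdet P u| := by
      refine ((contDiff_jdet sP).continuous.abs.tendsto 0).eventually (lt_mem_nhds ?_)
      rw [dP]; linarith
    filter_upwards [this] with u hu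
    have hb : β (jdet P u) = 0 := β.zero_of_le_dist (by simpa using hu.le)
    have hne : jdet P u ≠ 0 := fun h0 => by simp [h0] at hu; linarith
    simp only [hc, hb, add_zero]
    field_simp
  set T := congrSL (jac P 0 0 0) (jac P 0 1 0) (jac P 1 0 0) (jac P 1 1 0) with hT
  -- derivatives at `0`
  choose A hA hAe using fun k : ℕ => exists_jmap (X := R4) sP (c := fun _ => 1) contDiff_const k
  choose B hB hBe using fun k : ℕ => exists_jmap (X := R4) sP (contDiff_jdet sP) k
  have trans : ∀ (U : E2 → R4), ContDiff ℝ ∞ U → ∀ (x : E2) (j : ℕ),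
      iteratedFDeriv ℝ j (fun z => U (x + z)) (P 0) = iteratedFDeriv ℝ j U x := fun U _ x j => by
    rw [iteratedFDeriv_comp_add_left, hP0, add_zero]
  have sU : ∀ (U : E2 → R4), ContDiff ℝ ∞ U → ∀ x : E2, ContDiff ℝ ∞ fun z => U (x + z) :=
    fun U hU x => hU.comp (contDiff_const.add contDiff_id)
  -- the jet of `f (x + P ·)` at `0`
  set J : (E2 → R4) → E2 → Jet I.N := fun f x => jet I.N (fun u => f (x + P u)) 0 with hJ
  have hJF : JetFn J := by
    refine (JetFn.sum (c := fun (k : Fin (I.N + 1)) f x => ContinuousLinearMap.single ℝ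
      (fun k : Fin (I.N + 1) => ContinuousMultilinearMap ℝ (fun _ : Fin (k : ℕ) => E2) R4) k
      (∑ j ∈ Finset.range ((k : ℕ) + 1), A k j 0 (iteratedFDeriv ℝ j f x))) Finset.univ fun k _ =>
        (JetFn.sum (c := fun j f x => A k j 0 (iteratedFDeriv ℝ j f x)) _ fun j _ =>
          (jetFn_iterated j).clm (A k j 0)).clm _).congr fun f x hf => ?_
    funext k
    rw [Finset.sum_apply]
    simp only [ContinuousLinearMap.single_apply]
    rw [Finset.sum_pi_single]
    simp only [Finset.mem_univ, if_true]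
    have := hAe k (fun z => f (x + z)) (sU f hf x) 0
    simp only [one_smul, trans f hf] at this
    exact this
  -- the transferred identity
  have hImT : InIm fun f W x => ∑ k : Fin (I.L + 1), ∑ j ∈ Finset.range ((k : ℕ) + 1),
      (T.comp ((I.coef k (J f x)).comp (B k j 0))) (iteratedFDeriv ℝ j (Adj f W) x) := by
    refine InIm.sum _ fun k _ => InIm.sum _ fun j _ => (inIm_iterated j).clmFn ?_
    exact (hJF.comp (tg_comp (.const T) (tg_comp (I.coef_temperate k) (.const (B k j 0))))).congr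
      fun f x _ => rfl
  have hfin : InIm fun f W x => I.den (J f x) • W x := by
    refine (hImT.smul (JetFn.const (c 0))).congr fun f W hf hW x => ?_
    set f₁ : E2 → R4 := fun u => f (x + P u) with hf₁
    have sσ : ContDiff ℝ ∞ fun u => x + P u := contDiff_const.add sP
    have hjac : ∀ m i u, jac (fun u => x + P u) m i u = jac P m i u := fun m i u => by
      show fderiv ℝ (fun z => x m + P z m) u (ev i) = _
      rw [fderiv_const_add]
      rfl
    have hdx : ∀ u, jdet (fun u => x + P u) u = jdet P u := fun u => by simp [jdet, hjac]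
    have key := I.recovers f₁ (pullW (fun u => x + P u) c W) (hf.comp sσ)
      (contDiff_pullW sσ sc hW) 0
    have hadj : Adj f₁ (pullW (fun u => x + P u) c W) =ᶠ[𝓝 0]
        fun u => jdet P u • (fun z => Adj f W (x + z)) (P u) := by
      have h' : ∀ᶠ u in 𝓝 (0 : E2), c u * jdet (fun u => x + P u) u = 1 := by simpa [hdx] using hc1
      filter_upwards [h'.eventually_nhds] with u hu
      rw [hf₁, Adj_comp sσ hf hW hu, hdx]
    have hk : ∀ k : ℕ, iteratedFDeriv ℝ k (Adj f₁ (pullW (fun u => x + P u) c W)) 0 =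
        ∑ j ∈ Finset.range (k + 1), B k j 0 (iteratedFDeriv ℝ j (Adj f W) x) := fun k => by
      rw [(hadj.iteratedFDeriv ℝ k).eq_of_nhds,
        hBe k _ (sU _ (contDiff_Adj hf hW) x) 0]
      simp only [trans _ (contDiff_Adj hf hW)]
    simp only [hk, map_sum] at key
    have hpull : T (pullW (fun u => x + P u) c W 0) =
        (c 0 * jdet P 0 ^ 2) • W x := by
      simp only [pullW, hjac, hP0, add_zero, hT, map_smul, congrSL_apply]
      rw [congrS_adj, smul_smul]
      rfl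
    have := congrArg T key
    rw [map_smul, hpull] at this
    simp only [map_sum] at this
    have h1 : c 0 * jdet P 0 = 1 := hc1.self_of_nhds
    simp only [ContinuousLinearMap.comp_apply, hJ, ← hf₁]
    rw [← this, smul_smul, smul_smul]
    congr 1
    linear_combination (-(I.den (jet I.N f₁ 0)) * (c 0 * jdet P 0 + 1)) * h1
  obtain ⟨I', hI'⟩ := exists_ident_of_inIm (hJF.comp I.den_temperate) hfin
  refine ⟨I', fun f hf => ?_⟩
  rw [hI' f (σ y) hf, hJ]
  congr 2
  have : (fun u => f (σ y + P u)) = fun u => f (σ (y + u)) := by funext u; simp [hP]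
  simp only [this]
  funext k
  refine (iteratedFDeriv_comp_add_left (f := fun z => f (σ z)) (k : ℕ) y 0).trans ?_
  rw [add_zero]
  rfl

/-- GdChartStmt. -/
theorem gdChartStmt : GdChartStmt := by
  intro M _ _ _ f hf ψ x h
  obtain ⟨I, τ, y, hy, hden⟩ := (gdAt_chart_iff ψ f x).2 h
  have hτ : ContDiff ℝ ∞ τ.toFun := contMDiff_iff_contDiff.1 τ.smooth
  have hdet : jdet τ.toFun y ≠ 0 := by
    have hi : ContDiffAt ℝ ∞ τ.inv (τ.toFun y) :=
      contMDiffAt_iff_contDiffAt.1 (τ.contMDiffAt_inv ⟨y, rfl⟩)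
    have hd : DifferentiableAt ℝ τ.toFun y := hτ.differentiable (by simp) y
    have hL : (fderiv ℝ τ.inv (τ.toFun y)).comp (fderiv ℝ τ.toFun y) =
        ContinuousLinearMap.id ℝ E2 := by
      rw [← fderiv_comp y (hi.differentiableAt (by simp)) hd,
        show τ.inv ∘ τ.toFun = id from funext τ.left_inv, fderiv_id]
    set L := fderiv ℝ τ.inv (τ.toFun y) with hL'
    have e : ∀ i m : Fin 2, L (ev 0) m * jac τ.toFun 0 i y + L (ev 1) m * jac τ.toFun 1 i y
        = if i = m then 1 else 0 := fun i m => by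
      have hv : fderiv ℝ τ.toFun y (ev i) =
          jac τ.toFun 0 i y • ev 0 + jac τ.toFun 1 i y • ev 1 := by
        have := pd_comp_plane (g := fun z : E2 => z) contDiff_id hτ i y
        simpa [pd] using this
      have := congrArg (fun A : E2 →L[ℝ] E2 => A (ev i) m) hL
      simp only [ContinuousLinearMap.comp_apply, hv, map_add, map_smul] at this
      simp [ev] at this
      rw [mul_comm (L (ev 0) m), mul_comm (L (ev 1) m)]
      simpa [ev, eq_comm] using this
    intro h0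
    have a := e 0 0
    have b := e 1 1
    have a' := e 0 1
    have b' := e 1 0
    simp [jdet] at a b a' b' h0 ⊢
    have : (L (ev 0) 0 * L (ev 1) 1 - L (ev 1) 0 * L (ev 0) 1) *
        (jac τ.toFun 0 0 y * jac τ.toFun 1 1 y - jac τ.toFun 0 1 y * jac τ.toFun 1 0 y) = 1 := by
      linear_combination (L (ev 0) 1 * jac τ.toFun 0 1 y + L (ev 1) 1 * jac τ.toFun 1 1 y) * a + b
        - (L (ev 0) 0 * jac τ.toFun 0 1 y + L (ev 1) 0 * jac τ.toFun 1 1 y) * a'
    rw [h0, mul_zero] at this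
    exact zero_ne_one this
  obtain ⟨I', hI'⟩ := I.exists_change hτ hdet
  refine ⟨I', ?_⟩
  rw [← hy, hI' (fun z => f (ψ z)) (ψ.contDiff_comp hf)]
  exact pow_pos hden 2

end Vale.Agent.P205F
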