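import Vale.Agent.P205F.GoodAlg.Transpose

/-!
# P205, every closed surface: `TransposeStmt`
-/

set_option maxSynthPendingDepth 3

namespace Vale.Agent.P205F

open scoped ContDiff Topology

/-- Bounds for `g / d^e` on `{d > 0}`. -/
theorem rat_bound {E : Type} [NormedAddCommGroup E] [NormedSpace ℝ E] {d : E → ℝ}
    (hd : Function.HasTemperateGrowth d) (j : ℕ) :
    ∀ {X : Type} [NormedAddCommGroup X] [NormedSpace ℝ X] (g : E → X),
      Function.HasTemperateGrowth g → ∀ e : ℕ,
      ContDiffOn ℝ ∞ (fun y => ((d y)⁻¹) ^ e • g y) {y | 0 < d y} ∧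
      ∃ (C : ℝ) (e' : ℕ), ∀ z, 0 < d z →
        ‖iteratedFDeriv ℝ j (fun y => ((d y)⁻¹) ^ e • g y) z‖ ≤ C * (1 + ‖z‖ + (d z)⁻¹) ^ e' := by
  have smooth : ∀ {X : Type} [NormedAddCommGroup X] [NormedSpace ℝ X] (g : E → X),
      Function.HasTemperateGrowth g → ∀ e : ℕ,
      ContDiffOn ℝ ∞ (fun y => ((d y)⁻¹) ^ e • g y) {y | 0 < d y} := fun g hg e =>
    ((hd.1.contDiffOn.inv fun y hy => ne_of_gt (show 0 < d y from hy)).pow e).smul hg.1.contDiffOn
  induction j with
  | zero =>
    intro X _ _ g hg e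
    refine ⟨smooth g hg e, ?_⟩
    obtain ⟨k, C, h⟩ := hg.2 0
    refine ⟨|C|, e + k, fun z hz => ?_⟩
    rw [norm_iteratedFDeriv_zero, norm_smul, norm_pow, norm_inv, Real.norm_of_nonneg hz.le, pow_add]
    have h' : ‖g z‖ ≤ |C| * (1 + ‖z‖) ^ k := (norm_iteratedFDeriv_zero (𝕜 := ℝ) (f := g) ▸ h z).trans
      (mul_le_mul_of_nonneg_right (le_abs_self C) (by positivity))
    have hi : 0 < (d z)⁻¹ := inv_pos.2 hz
    calc (d z)⁻¹ ^ e * ‖g z‖ ≤ (1 + ‖z‖ + (d z)⁻¹) ^ e * (|C| * (1 + ‖z‖) ^ k) := by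
          refine mul_le_mul ?_ h' (norm_nonneg _) (by positivity)
          exact pow_le_pow_left₀ hi.le (by linarith [norm_nonneg z]) e
      _ ≤ (1 + ‖z‖ + (d z)⁻¹) ^ e * (|C| * (1 + ‖z‖ + (d z)⁻¹) ^ k) := by
          exact mul_le_mul_of_nonneg_left (mul_le_mul_of_nonneg_left
            (pow_le_pow_left₀ (by positivity) (by linarith) k) (abs_nonneg C)) (by positivity)
      _ = |C| * ((1 + ‖z‖ + (d z)⁻¹) ^ e * (1 + ‖z‖ + (d z)⁻¹) ^ k) := by ring
  | succ j ih =>
    intro X _ _ g hg e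
    refine ⟨smooth g hg e, ?_⟩
    set g' : E → (E →L[ℝ] X) := fun y =>
      d y • fderiv ℝ g y - (e : ℝ) • (fderiv ℝ d y).smulRight (g y) with hg'
    have tg' : Function.HasTemperateGrowth g' := by
      refine (hd.smul (hasTemperateGrowth_fderiv hg)).sub ?_
      exact ((e : ℝ) • ContinuousLinearMap.smulRightL ℝ E X).bilinear_hasTemperateGrowth
        (hasTemperateGrowth_fderiv hd) hg
    obtain ⟨C, e', hC⟩ := (ih g' tg' (e + 1)).2
    refine ⟨C, e', fun z hz => ?_⟩
    have hev : (fderiv ℝ fun y => ((d y)⁻¹) ^ e • g y) =ᶠ[𝓝 z]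
        fun y => ((d y)⁻¹) ^ (e + 1) • g' y := by
      filter_upwards [hd.1.continuous.tendsto z (lt_mem_nhds hz)] with y hy
      have hy' : 0 < d y := hy
      have dd : DifferentiableAt ℝ d y := hd.1.differentiable (by simp) y
      have h₁ : HasFDerivAt (fun y => ((d y)⁻¹) ^ e) _ y :=
        (((hasDerivAt_inv hy'.ne').comp_hasFDerivAt y dd.hasFDerivAt)).pow e
      rw [fderiv_fun_smul h₁.differentiableAt (hg.1.differentiable (by simp) y), h₁.fderiv, hg']
      ext v
      simp only [_root_.add_apply, _root_.smul_apply, ContinuousLinearMap.smulRight_apply,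
        _root_.sub_apply, smul_sub, smul_smul, smul_eq_mul, Function.comp_apply, nsmul_eq_mul]
      rw [sub_eq_add_neg]
      congr 1
      · congr 1
        rw [pow_succ]
        field_simp
      · rw [← neg_smul]
        congr 1
        rcases e with _ | e
        · simp
        · simp only [Nat.add_sub_cancel, pow_succ, Nat.cast_add, Nat.cast_one]
          field_simp
    rw [← norm_iteratedFDeriv_fderiv, (hev.iteratedFDeriv ℝ j).eq_of_nhds]
    exact hC z hz

/-- `φ^(k+1) D^k (c q)` is an operator with temperate coefficients where `c φ = 1`. -/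
theorem exists_leibniz (I : Ident) (k : ℕ) :
    ∃ P : (E2 → R4) → (E2 → S3) → E2 → ContinuousMultilinearMap ℝ (fun _ : Fin k => E2) S3,
      LinOp P ∧ ∀ (f : E2 → R4) (q : E2 → S3) (c : E2 → ℝ), ContDiff ℝ ∞ f → ContDiff ℝ ∞ q →
        ContDiff ℝ ∞ c → ∀ x, (∀ᶠ z in 𝓝 x, c z * I.den (jet I.N f z) = 1) →
          P f q x = I.den (jet I.N f x) ^ (k + 1) •
            iteratedFDeriv ℝ k (fun z => c z • q z) x := by
  have hφ : JetFn fun f x => I.den (jet I.N f x) :=
    ⟨I.N, I.den, I.den_temperate, fun _ _ _ => rfl⟩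
  induction k with
  | zero =>
    refine ⟨fun _ q x => (continuousMultilinearCurryFin0 ℝ E2 S3).symm (q x),
      (LinOp.id.clm (continuousMultilinearCurryFin0 ℝ E2
        S3).symm.toContinuousLinearEquiv.toContinuousLinearMap).congr fun _ _ _ _ _ => rfl,
      fun f q c _ _ _ x h => ?_⟩
    ext m
    simp [smul_smul]
    rw [← mul_assoc, mul_comm (I.den (jet I.N f x)) (c x), h.self_of_nhds, one_mul]
  | succ k ih =>
    obtain ⟨P, hP, hPe⟩ := ih
    set S : Fin 2 → (ContinuousMultilinearMap ℝ (fun _ : Fin k => E2) S3 →L[ℝ]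
        ContinuousMultilinearMap ℝ (fun _ : Fin (k + 1) => E2) S3) := fun i =>
      (continuousMultilinearCurryLeftEquiv ℝ (fun _ : Fin (k + 1) => E2)
        S3).symm.toContinuousLinearEquiv.toContinuousLinearMap.comp
        (ContinuousLinearMap.smulRightL ℝ E2 _ (EuclideanSpace.proj (𝕜 := ℝ) i)) with hS
    refine ⟨fun f q x => ∑ i, S i (I.den (jet I.N f x) • pd i (P f q) x
        - (((k : ℝ) + 1) * pd i (fun z => I.den (jet I.N f z)) x) • P f q x),
      LinOp.sum _ fun i _ => (((hP.pd i).smul hφ).sub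
        (hP.smul ((JetFn.const ((k : ℝ) + 1)).mul (hφ.pd i)))).clm (S i),
      fun f q c hf hq hc x h => ?_⟩
    set φ : E2 → ℝ := fun z => I.den (jet I.N f z) with hφ'
    set U := iteratedFDeriv ℝ k fun z => c z • q z with hU
    have sU : ContDiff ℝ ∞ U := (hc.smul hq).iteratedFDeriv_right (by exact_mod_cast le_top)
    have sφ : ContDiff ℝ ∞ φ := I.den_temperate.1.comp (contDiff_jet hf I.N)
    have hPU : P f q =ᶠ[𝓝 x] fun z => φ z ^ (k + 1) • U z := by
      filter_upwards [h.eventually_nhds] with z hz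
      exact hPe f q c hf hq hc z hz
    have hder : ∀ i, pd i (P f q) x =
        ((k + 1 : ℝ) * φ x ^ k * pd i φ x) • U x + φ x ^ (k + 1) • pd i U x := fun i => by
      simp only [pd]
      rw [hPU.fderiv_eq, fderiv_fun_smul ((sφ.differentiable (by simp) x).fun_pow (k + 1))
        (sU.differentiable (by simp) x), fderiv_fun_pow (k + 1) (sφ.differentiable (by simp) x)]
      simp only [_root_.add_apply, _root_.smul_apply, ContinuousLinearMap.smulRight_apply,
        Nat.add_sub_cancel, smul_eq_mul, nsmul_eq_mul, Nat.cast_add, Nat.cast_one]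
      rw [add_comm]
    have hD : iteratedFDeriv ℝ (k + 1) (fun z => c z • q z) x = ∑ i, S i (pd i U x) := by
      have e : fderiv ℝ U x =
          (EuclideanSpace.proj (𝕜 := ℝ) (0 : Fin 2)).smulRight (pd 0 U x)
          + (EuclideanSpace.proj (𝕜 := ℝ) (1 : Fin 2)).smulRight (pd 1 U x) := by
        ext v : 1
        have hv : v = v 0 • ev 0 + v 1 • ev 1 := by
          ext j
          fin_cases j <;> simp [ev]
        conv_lhs => rw [hv]
        simp [pd, map_add, map_smul]
      show (continuousMultilinearCurryLeftEquiv ℝ (fun _ : Fin (k + 1) => E2) S3).symm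
        (fderiv ℝ U x) = _
      rw [e, map_add, Fin.sum_univ_two]
      rfl
    rw [hD, Finset.smul_sum]
    refine Finset.sum_congr rfl fun i _ => ?_
    rw [← map_smul]
    congr 1
    rw [hder, hPe f q c hf hq hc x h]
    show φ x • _ - ((k + 1 : ℝ) * pd i φ x) • (φ x ^ (k + 1) • U x) = φ x ^ (k + 1 + 1) • pd i U x
    module

theorem Lin_congr {f w w' : E2 → R4} {x : E2} (h : w =ᶠ[𝓝 x] w') : Lin f w x = Lin f w' x := by
  simp only [Lin, pd, h.fderiv_eq]

/-- TransposeStmt. -/
theorem transposeStmt : TransposeStmt := by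
  intro I
  obtain ⟨R, hR, hRe⟩ := exists_right_mul I
  obtain ⟨N₀, L₀, co₀, hco₀, e₀⟩ := hR
  choose P hP hPe using exists_leibniz I
  have hφ : JetFn fun f x => I.den (jet I.N f x) :=
    ⟨I.N, I.den, I.den_temperate, fun _ _ _ => rfl⟩
  have hpow : ∀ n : ℕ, JetFn fun f x => I.den (jet I.N f x) ^ n := fun n =>
    ⟨I.N, fun z => I.den z ^ n, I.den_temperate.pow n, fun _ _ _ => rfl⟩
  have hΨ : LinOp fun f q x => ∑ k ∈ Finset.range L₀,
      co₀ k (jet N₀ f x) (I.den (jet I.N f x) ^ (L₀ - 1 - k) • P k f q x) :=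
    LinOp.sum _ fun k _ => ((hP k).smul (hpow _)).clmFn
      ⟨N₀, co₀ k, hco₀ k, fun _ _ _ => rfl⟩
  obtain ⟨N₁, L₁, h₁⟩ := hΨ.rep
  obtain ⟨co, hco, eco⟩ := h₁ (max N₁ I.N) (L₁ + 1) (le_max_left _ _) (Nat.le_succ L₁)
  set den : Jet (max N₁ I.N) → ℝ := fun z => I.den (Jet.res (le_max_right N₁ I.N) z) with hden
  have tden : Function.HasTemperateGrowth den :=
    I.den_temperate.comp (Jet.res _).hasTemperateGrowth
  refine ⟨⟨max N₁ I.N, L₁, den, fun k z => (den z)⁻¹ ^ L₀ • co k z, fun z => I.den_nonneg _,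
    tden.1, fun j => ?_, fun k => (rat_bound tden 0 (co k) (hco k) L₀).1,
    fun k j => (rat_bound tden j (co k) (hco k) L₀).2, fun f q hf hq x hx => ?_⟩,
    fun f _ x => rfl⟩
  · obtain ⟨k, C, h⟩ := tden.2 j
    exact ⟨C, k, h⟩
  · set φ : E2 → ℝ := fun z => I.den (jet I.N f z) with hφ'
    have hx' : 0 < φ x := hx
    have sφ : ContDiff ℝ ∞ φ := I.den_temperate.1.comp (contDiff_jet hf I.N)
    let β : ContDiffBump (0 : ℝ) :=
      ⟨φ x / 4, φ x / 2, by positivity, by linarith⟩
    have hne : ∀ t : ℝ, t ^ 2 + β t ≠ 0 := fun t => by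
      by_cases ht : t = 0
      · subst ht; simp [β.one_of_mem_closedBall (Metric.mem_closedBall_self β.rIn_pos.le)]
      · have := β.nonneg' t; positivity
    set c : E2 → ℝ := fun z => φ z / (φ z ^ 2 + β (φ z)) with hc
    have sc : ContDiff ℝ ∞ c :=
      sφ.div ((sφ.pow 2).add (β.contDiff.comp sφ)) fun z => hne _
    have hc1 : ∀ᶠ z in 𝓝 x, c z * φ z = 1 := by
      filter_upwards [(sφ.continuous.tendsto x).eventually (lt_mem_nhds (half_lt_self hx'))]
        with z hz
      have hb : β (φ z) = 0 := β.zero_of_le_dist (by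
        simp only [Real.dist_eq, sub_zero]
        rw [abs_of_pos (by linarith)]
        exact hz.le)
      have : φ z ≠ 0 := by linarith
      simp only [hc, hb, add_zero]
      field_simp
    have main := hRe f (fun z => c z • q z) hf (sc.smul hq) x
    rw [show I.den (jet I.N f x) • (fun z => c z • q z) x = q x by
      simp only [smul_smul]
      rw [mul_comm, hc1.self_of_nhds, one_smul]] at main
    refine Eq.trans (Lin_congr ?_) main
    filter_upwards [hc1.eventually_nhds, (sφ.continuous.tendsto x).eventually (lt_mem_nhds hx')]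
      with z hz hpos
    rw [e₀ f (fun z => c z • q z) hf (sc.smul hq) z]
    simp only [_root_.smul_apply, ← Finset.smul_sum]
    rw [Fin.sum_univ_eq_sum_range (fun k => co k (jet (max N₁ I.N) f z)
      (iteratedFDeriv ℝ k q z)), ← eco f q hf hq z, Finset.smul_sum]
    refine Finset.sum_congr rfl fun k hk => ?_
    rw [hPe k f q c hf hq sc z hz, map_smul, map_smul, smul_smul, smul_smul]
    show ((φ z)⁻¹ ^ L₀ * φ z ^ (L₀ - 1 - k) * φ z ^ (k + 1)) •
      (co₀ k (jet N₀ f z)) (iteratedFDeriv ℝ k (fun z => c z • q z) z) = _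
    rw [mul_assoc, ← pow_add, show L₀ - 1 - k + (k + 1) = L₀ by
      have := Finset.mem_range.1 hk
      omega, ← mul_pow, inv_mul_cancel₀ hpos.ne', one_pow, one_smul]

end Vale.Agent.P205F
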