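import Vale.Agent.P205F.GoodAlg.Jets

/-!
# P205, every closed surface: the image of the adjoint

`InIm Φ`: the linear differential expression `Φ f W` is a differential operator, with temperate
jet coefficients, applied to `Adj f W`. A scalar jet function `φ` with `φ W ∈ Im` gives an `Ident`.
-/

namespace Vale.Agent.P205F

open scoped ContDiff RealInnerProductSpace

variable {X Y : Type*} [NormedAddCommGroup X] [NormedSpace ℝ X] [NormedAddCommGroup Y]
  [NormedSpace ℝ Y]

/-- Coefficients of an operator of every order, with values in `X`. -/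
abbrev Coef (N : ℕ) (X : Type*) [NormedAddCommGroup X] [NormedSpace ℝ X] : Type _ :=
  (k : ℕ) → Jet N → (ContinuousMultilinearMap ℝ (fun _ : Fin k => E2) R4 →L[ℝ] X)

/-- Value of an operator. -/
noncomputable def opVal {N : ℕ} (L : ℕ) (co : Coef N X) (f : E2 → R4) (u : E2 → R4) (x : E2) : X :=
  ∑ k ∈ Finset.range L, co k (jet N f x) (iteratedFDeriv ℝ k u x)

/-- `Φ f W` is an operator applied to `Adj f W`. -/
def InIm (Φ : (E2 → R4) → (E2 → S3) → E2 → X) : Prop :=
  ∃ (N L : ℕ) (co : Coef N X), (∀ k, Function.HasTemperateGrowth (co k)) ∧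
    ∀ f W, ContDiff ℝ ∞ f → ContDiff ℝ ∞ W → ∀ x, Φ f W x = opVal L co f (Adj f W) x

theorem InIm.congr {Φ Ψ : (E2 → R4) → (E2 → S3) → E2 → X} (h : InIm Φ)
    (e : ∀ f W, ContDiff ℝ ∞ f → ContDiff ℝ ∞ W → ∀ x, Ψ f W x = Φ f W x) : InIm Ψ :=
  let ⟨N, L, co, hco, hΦ⟩ := h
  ⟨N, L, co, hco, fun f W hf hW x => (e f W hf hW x).trans (hΦ f W hf hW x)⟩

theorem InIm.zero : InIm (X := X) fun _ _ _ => 0 :=
  ⟨0, 0, fun _ _ => 0, fun _ => .zero, fun _ _ _ _ _ => by simp [opVal]⟩

/-- Raise both orders of a representation. -/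
theorem InIm.rep {Φ : (E2 → R4) → (E2 → S3) → E2 → X} (h : InIm Φ) :
    ∃ N L : ℕ, ∀ N' L', N ≤ N' → L ≤ L' → ∃ co : Coef N' X,
      (∀ k, Function.HasTemperateGrowth (co k)) ∧
      ∀ f W, ContDiff ℝ ∞ f → ContDiff ℝ ∞ W → ∀ x, Φ f W x = opVal L' co f (Adj f W) x := by
  obtain ⟨N, L, co, hco, e⟩ := h
  refine ⟨N, L, fun N' L' hN hL =>
    ⟨fun k z => if k < L then co k (Jet.res hN z) else 0, fun k => ?_, fun f W hf hW x => ?_⟩⟩
  · by_cases hk : k < L
    · simpa [hk, Function.comp_def] using (hco k).comp (Jet.res hN).hasTemperateGrowth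
    · simp [hk]
  · rw [e f W hf hW x]
    simp only [opVal, Jet.res_jet]
    refine (Finset.sum_congr rfl fun k hk => ?_).trans
      (Finset.sum_subset (Finset.range_mono hL) fun k _ hk => ?_)
    · simp [Finset.mem_range.1 hk]
    · simp [Finset.mem_range.not.1 hk]

theorem InIm.add {Φ Ψ : (E2 → R4) → (E2 → S3) → E2 → X} (hΦ : InIm Φ) (hΨ : InIm Ψ) :
    InIm fun f W x => Φ f W x + Ψ f W x := by
  obtain ⟨N₁, L₁, h₁⟩ := hΦ.rep
  obtain ⟨N₂, L₂, h₂⟩ := hΨ.rep
  obtain ⟨c₁, t₁, e₁⟩ := h₁ (max N₁ N₂) (max L₁ L₂) (le_max_left _ _) (le_max_left _ _)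
  obtain ⟨c₂, t₂, e₂⟩ := h₂ (max N₁ N₂) (max L₁ L₂) (le_max_right _ _) (le_max_right _ _)
  refine ⟨_, max L₁ L₂, fun k => c₁ k + c₂ k, fun k => (t₁ k).add (t₂ k), fun f W hf hW x => ?_⟩
  simp [e₁ f W hf hW x, e₂ f W hf hW x, opVal, Finset.sum_add_distrib]

/-- Apply a jet dependent linear map. -/
theorem InIm.clmFn {Φ : (E2 → R4) → (E2 → S3) → E2 → X} (hΦ : InIm Φ)
    {A : (E2 → R4) → E2 → (X →L[ℝ] Y)} (hA : JetFn A) :
    InIm fun f W x => A f x (Φ f W x) := by
  obtain ⟨N₁, L₁, h₁⟩ := hΦ.rep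
  obtain ⟨N₂, h₂⟩ := hA.rep
  obtain ⟨c₁, t₁, e₁⟩ := h₁ (max N₁ N₂) L₁ (le_max_left _ _) le_rfl
  obtain ⟨g, hg, e₂⟩ := h₂ (max N₁ N₂) (le_max_right _ _)
  refine ⟨_, L₁, fun k z => (g z).comp (c₁ k z), fun k => ?_, fun f W hf hW x => ?_⟩
  · exact tg_comp hg (t₁ k)
  · simp [e₁ f W hf hW x, e₂ f x hf, opVal, map_sum]

theorem InIm.clm {Φ : (E2 → R4) → (E2 → S3) → E2 → X} (hΦ : InIm Φ) (A : X →L[ℝ] Y) :
    InIm fun f W x => A (Φ f W x) :=
  hΦ.clmFn (JetFn.const A)

theorem InIm.smul {Φ : (E2 → R4) → (E2 → S3) → E2 → X} (hΦ : InIm Φ)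
    {c : (E2 → R4) → E2 → ℝ} (hc : JetFn c) : InIm fun f W x => c f x • Φ f W x :=
  (hΦ.clmFn (hc.clm (ContinuousLinearMap.lsmul ℝ ℝ (E := X)))).congr fun _ _ _ _ _ => rfl

theorem InIm.neg {Φ : (E2 → R4) → (E2 → S3) → E2 → X} (hΦ : InIm Φ) :
    InIm fun f W x => -Φ f W x :=
  (hΦ.clm (-ContinuousLinearMap.id ℝ X)).congr fun _ _ _ _ _ => rfl

theorem InIm.sub {Φ Ψ : (E2 → R4) → (E2 → S3) → E2 → X} (hΦ : InIm Φ) (hΨ : InIm Ψ) :
    InIm fun f W x => Φ f W x - Ψ f W x :=
  (hΦ.add hΨ.neg).congr fun _ _ _ _ _ => sub_eq_add_neg _ _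

theorem InIm.sum {ι : Type*} (s : Finset ι) {Φ : ι → (E2 → R4) → (E2 → S3) → E2 → X}
    (h : ∀ i ∈ s, InIm (Φ i)) : InIm fun f W x => ∑ i ∈ s, Φ i f W x := by
  classical
  induction s using Finset.induction_on with
  | empty => simpa using InIm.zero (X := X)
  | insert a s ha ih =>
    simp only [Finset.sum_insert ha]
    exact (h a (Finset.mem_insert_self a s)).add
      (ih fun i hi => h i (Finset.mem_insert_of_mem hi))

/-- The residual itself. -/
theorem InIm.adj : InIm fun f W x => Adj f W x := by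
  refine ⟨0, 1, fun k _ => if h : k = 0 then by
      subst h
      exact (continuousMultilinearCurryFin0 ℝ E2 R4).toContinuousLinearEquiv.toContinuousLinearMap
    else 0, fun k => .const _, fun f W _ _ x => ?_⟩
  simp [opVal]

theorem contDiff_pd {f : E2 → X} (hf : ContDiff ℝ ∞ f) (i : Fin 2) : ContDiff ℝ ∞ (pd i f) :=
  ((hf.fderiv_right (by exact_mod_cast le_top)).clm_apply contDiff_const)

theorem contDiff_Adj {f : E2 → R4} {W : E2 → S3} (hf : ContDiff ℝ ∞ f) (hW : ContDiff ℝ ∞ W) :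
    ContDiff ℝ ∞ (Adj f W) := by
  have hW' : ∀ j, ContDiff ℝ ∞ fun z => W z j := fun j => contDiff_pi.1 hW j
  exact (contDiff_pd (((hW' 0).smul (contDiff_pd hf 0)).add ((hW' 1).smul (contDiff_pd hf 1))) 0).add
    (contDiff_pd (((hW' 1).smul (contDiff_pd hf 0)).add ((hW' 2).smul (contDiff_pd hf 1))) 1)

/-- Partial derivatives stay in the image. -/
theorem InIm.pd {Φ : (E2 → R4) → (E2 → S3) → E2 → X} (hΦ : InIm Φ) (i : Fin 2) :
    InIm fun f W x => P205F.pd i (Φ f W) x := by
  obtain ⟨N, L, co, hco, e⟩ := hΦ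
  set A : (k : ℕ) → (ContinuousMultilinearMap ℝ (fun _ : Fin (k + 1) => E2) R4 →L[ℝ]
      ContinuousMultilinearMap ℝ (fun _ : Fin k => E2) R4) := fun k =>
    (ContinuousLinearMap.apply ℝ (ContinuousMultilinearMap ℝ (fun _ : Fin k => E2) R4) (ev i)).comp
      (continuousMultilinearCurryLeftEquiv ℝ (fun _ : Fin (k + 1) => E2)
        R4).toContinuousLinearEquiv.toContinuousLinearMap with hA
  set c₀ : Coef (N + 1) X := fun k z =>
    if k < L then fderiv ℝ (co k) (Jet.res (Nat.le_succ N) z) (Jet.shift N i z) else 0 with hc₀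
  set c₁ : Coef (N + 1) X := fun k z =>
    match k with
    | 0 => 0
    | j + 1 => if j < L then (co j (Jet.res (Nat.le_succ N) z)).comp (A j) else 0 with hc₁
  refine ⟨N + 1, L + 1, fun k => c₀ k + c₁ k, fun k => ?_, fun f W hf hW x => ?_⟩
  · refine Function.HasTemperateGrowth.add ?_ ?_
    · by_cases hk : k < L
      · simp only [hc₀, hk, if_true]
        exact tg_apply
          ((hasTemperateGrowth_fderiv (hco k)).comp (Jet.res (Nat.le_succ N)).hasTemperateGrowth)
          (Jet.shift N i).hasTemperateGrowth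
      · simp [hc₀, hk]
    · cases k with
      | zero => simp [hc₁]
      | succ j =>
        by_cases hj : j < L
        · simp only [hc₁, hj, if_true]
          exact tg_comp ((hco j).comp (Jet.res (Nat.le_succ N)).hasTemperateGrowth) (.const (A j))
        · simp [hc₁, hj]
  · have hu : ContDiff ℝ ∞ (Adj f W) := contDiff_Adj hf hW
    have h : Φ f W = fun z => ∑ k ∈ Finset.range L,
        co k (jet N f z) (iteratedFDeriv ℝ k (Adj f W) z) := funext fun z => e f W hf hW z
    have hc : ∀ k, DifferentiableAt ℝ (fun z => co k (jet N f z)) x := fun k =>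
      (((hco k).1.comp (contDiff_jet hf N)).differentiable (by simp)) x
    have hd : ∀ k : ℕ, DifferentiableAt ℝ (fun z => iteratedFDeriv ℝ k (Adj f W) z) x := fun k =>
      ((hu.iteratedFDeriv_right (m := ∞) (by exact_mod_cast le_top)).differentiable (by simp)) x
    show fderiv ℝ (Φ f W) x (ev i) = _
    rw [h, fderiv_fun_sum fun k _ => (hc k).clm_apply (hd k), ContinuousLinearMap.sum_apply]
    simp only [opVal, Pi.add_apply, ContinuousLinearMap.add_apply, Finset.sum_add_distrib]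
    rw [Finset.sum_range_succ (fun k => c₀ k (jet (N + 1) f x) _),
      Finset.sum_range_succ' (fun k => c₁ k (jet (N + 1) f x) _)]
    simp only [hc₀, hc₁, lt_irrefl, if_false, ContinuousLinearMap.zero_apply, add_zero]
    rw [← Finset.sum_add_distrib]
    refine Finset.sum_congr rfl fun k hk => ?_
    have h' : fderiv ℝ (fun z => co k (jet N f z)) x (ev i) =
        fderiv ℝ (co k) (jet N f x) (Jet.shift N i (jet (N + 1) f x)) := by
      rw [show (fun z => co k (jet N f z)) = co k ∘ jet N f from rfl,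
        fderiv_comp x ((hco k).1.differentiable (by simp) _)
          (hasFDerivAt_jet hf N x).differentiableAt, ContinuousLinearMap.comp_apply, fderiv_jet hf]
    have hres : Jet.res (Nat.le_succ N) (jet (N + 1) f x) = jet N f x := rfl
    have hA' : A k (iteratedFDeriv ℝ (k + 1) (Adj f W) x) =
        fderiv ℝ (fun z => iteratedFDeriv ℝ k (Adj f W) z) x (ev i) := by
      ext m
      simp [hA, iteratedFDeriv_succ_apply_left]
    rw [fderiv_clm_apply (hc k) (hd k), if_pos (Finset.mem_range.1 hk),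
      if_pos (Finset.mem_range.1 hk), hres, ← h', ContinuousLinearMap.comp_apply, hA']
    simp only [ContinuousLinearMap.add_apply, ContinuousLinearMap.comp_apply,
      ContinuousLinearMap.flip_apply]
    exact add_comm _ _

/-- A jet function `φ` with `φ W ∈ Im` gives an identity with denominator `φ²`. -/
theorem exists_ident_of_inIm {φ : (E2 → R4) → E2 → ℝ} (hφ : JetFn φ)
    (h : InIm fun f W x => φ f x • W x) :
    ∃ I : Ident, ∀ f x, ContDiff ℝ ∞ f → I.den (jet I.N f x) = φ f x ^ 2 := by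
  obtain ⟨N₁, h₁⟩ := hφ.rep
  obtain ⟨N₂, L, h₂⟩ := (h.smul hφ).rep
  obtain ⟨g, hg, eg⟩ := h₁ (max N₁ N₂) (le_max_left _ _)
  obtain ⟨co, hco, eco⟩ := h₂ (max N₁ N₂) (L + 1) (le_max_right _ _) (Nat.le_succ L)
  refine ⟨⟨max N₁ N₂, L, fun z => g z ^ 2, fun k => co k, fun z => sq_nonneg _, hg.pow 2,
    fun k => hco k, fun f W hf hW x => ?_⟩, fun f x hf => by simp [eg f x hf]⟩
  have := eco f W hf hW x
  simp only [opVal] at this
  rw [Fin.sum_univ_eq_sum_range (fun k => co k (jet (max N₁ N₂) f x)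
    (iteratedFDeriv ℝ k (Adj f W) x)), ← this, smul_smul, ← eg f x hf, pow_two]

/-- Identities add. -/
theorem Ident.exists_add (I J : Ident) : ∃ K : Ident, ∀ f x,
    K.den (jet K.N f x) = I.den (jet I.N f x) + J.den (jet J.N f x) := by
  have mk : ∀ A : Ident, InIm fun f W x => A.den (jet A.N f x) • W x := fun A =>
    ⟨A.N, A.L + 1, fun k z => if h : k < A.L + 1 then A.coef ⟨k, h⟩ z else 0,
      fun k => by by_cases h : k < A.L + 1 <;> simp [h, A.coef_temperate],
      fun f W hf hW x => by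
        beta_reduce
        rw [A.recovers f W hf hW x, opVal, Finset.sum_range]
        exact Finset.sum_congr rfl fun k _ => by simp [k.isLt]⟩
  have h : InIm fun f W x => (I.den (jet I.N f x) + J.den (jet J.N f x)) • W x :=
    ((mk I).add (mk J)).congr fun _ _ _ _ _ => add_smul _ _ _
  obtain ⟨N, L, co, hco, e⟩ := h
  refine ⟨⟨max N (max I.N J.N), L,
    fun z => I.den (Jet.res ((le_max_left _ _).trans (le_max_right _ _)) z)
      + J.den (Jet.res ((le_max_right _ _).trans (le_max_right _ _)) z),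
    fun k z => if (k : ℕ) < L then co k (Jet.res (le_max_left _ _) z) else 0,
    fun z => add_nonneg (I.den_nonneg _) (J.den_nonneg _),
    (I.den_temperate.comp (Jet.res _).hasTemperateGrowth).add
      (J.den_temperate.comp (Jet.res _).hasTemperateGrowth),
    fun k => ?_, fun f W hf hW x => ?_⟩, fun f x => rfl⟩
  · by_cases hk : (k : ℕ) < L
    · simp only [hk, if_true]
      exact (hco k).comp (Jet.res _).hasTemperateGrowth
    · simp [hk]
  · simp only [Jet.res_jet]
    refine (e f W hf hW x).trans ?_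
    rw [opVal, ← Fin.sum_univ_eq_sum_range, Fin.sum_univ_castSucc]
    simp

end Vale.Agent.P205F
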