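import Vale.Agent.P205F.GoodAlg.Sys

/-!
# P205, every closed surface: goodness where `N = (k, D) ≠ 0`

In either chart one unknown `u` satisfies a transport equation `p u_x + q u_y ≡ α u`, and every
derived row `π u_y + β u` is in the image. Determinants of two rows give elements of the ideal.
-/

namespace Vale.Agent.P205F

open scoped ContDiff RealInnerProductSpace

/-- A transport equation for the component `j`. -/
def Transport (j : Fin 3) (p q α : SF) : Prop :=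
  InIm fun f W x => p f x * dW 0 j W x + q f x * dW 1 j W x - α f x * W x j

/-- A row in the two unknowns `u_y, u`. -/
def Row1 (j : Fin 3) (π β : SF) : Prop :=
  InIm fun f W x => π f x * dW 1 j W x + β f x * W x j

/-- Derived row, `π`. -/
noncomputable def stepPi (p q α π : SF) : SF := fun f x =>
  p f x * (p f x * pd 0 (π f) x + q f x * pd 1 (π f) x)
    + π f x * (p f x * α f x + pd 1 (p f) x * q f x - p f x * pd 1 (q f) x)

/-- Derived row, `β`. -/
noncomputable def stepBeta (p q α π β : SF) : SF := fun f x =>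
  p f x * (p f x * pd 0 (β f) x + q f x * pd 1 (β f) x)
    + π f x * (p f x * pd 1 (α f) x - pd 1 (p f) x * α f x) + β f x * (p f x * α f x)

/-- The rows derived from one row. -/
noncomputable def rows (p q α : SF) (r : SF × SF) : ℕ → SF × SF
  | 0 => r
  | n + 1 => (stepPi p q α (rows p q α r n).1,
      stepBeta p q α (rows p q α r n).1 (rows p q α r n).2)

theorem JetFn.stepPi {p q α π : SF} (hp : JetFn p) (hq : JetFn q) (hα : JetFn α) (hπ : JetFn π) :
    JetFn (P205F.stepPi p q α π) :=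
  (hp.mul ((hp.mul (hπ.pd 0)).add (hq.mul (hπ.pd 1)))).add
    (hπ.mul (((hp.mul hα).add ((hp.pd 1).mul hq)).sub (hp.mul (hq.pd 1))))

theorem JetFn.stepBeta {p q α π β : SF} (hp : JetFn p) (hq : JetFn q) (hα : JetFn α)
    (hπ : JetFn π) (hβ : JetFn β) : JetFn (P205F.stepBeta p q α π β) :=
  ((hp.mul ((hp.mul (hβ.pd 0)).add (hq.mul (hβ.pd 1)))).add
    (hπ.mul ((hp.mul (hα.pd 1)).sub ((hp.pd 1).mul hα)))).add (hβ.mul (hp.mul hα))

theorem Row1.step {j : Fin 3} {p q α π β : SF} (hp : JetFn p) (hq : JetFn q) (hα : JetFn α)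
    (hπ : JetFn π) (hβ : JetFn β) (T : Transport j p q α) (R : Row1 j π β) :
    Row1 j (stepPi p q α π) (stepBeta p q α π β) := by
  have R₀ := InIm.pd R 0
  have R₁ := InIm.pd R 1
  have T₁ := InIm.pd T 1
  refine ((((((R₀.mulFn hp).add (R₁.mulFn hq)).mulFn hp).sub (T₁.mulFn (hπ.mul hp))).add
    (InIm.mulFn T (hπ.mul (hp.pd 1)))).sub (InIm.mulFn T (hp.mul hβ))).congr
    fun f W hf hW x => ?_
  have w : ContDiff ℝ ∞ fun z => W z j := contDiff_pi.1 hW j
  have w₀ : ContDiff ℝ ∞ fun z => dW 0 j W z := contDiff_pd w 0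
  have w₁ : ContDiff ℝ ∞ fun z => dW 1 j W z := contDiff_pd w 1
  have sπ := hπ.smooth hf
  have sβ := hβ.smooth hf
  have sp := hp.smooth hf
  have sq := hq.smooth hf
  have sα := hα.smooth hf
  rw [pd_add (sπ.mul w₁) (sβ.mul w), pd_add (sπ.mul w₁) (sβ.mul w), pd_mul sπ w₁, pd_mul sπ w₁,
    pd_mul sβ w, pd_mul sβ w, pd_sub ((sp.mul w₀).add (sq.mul w₁)) (sα.mul w),
    pd_add (sp.mul w₀) (sq.mul w₁), pd_mul sp w₀, pd_mul sq w₁, pd_mul sα w]
  have e : pd 1 (fun z => dW 0 j W z) x = pd 0 (fun z => dW 1 j W z) x := pd_comm w 1 0 x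
  simp only [stepPi, stepBeta, dW] at e ⊢
  rw [e]
  ring

theorem rows_spec {j : Fin 3} {p q α : SF} {r : SF × SF} (hp : JetFn p) (hq : JetFn q)
    (hα : JetFn α) (h₁ : JetFn r.1) (h₂ : JetFn r.2) (T : Transport j p q α)
    (R : Row1 j r.1 r.2) (n : ℕ) :
    JetFn (rows p q α r n).1 ∧ JetFn (rows p q α r n).2 ∧
      Row1 j (rows p q α r n).1 (rows p q α r n).2 := by
  induction n with
  | zero => exact ⟨h₁, h₂, R⟩
  | succ n ih =>
    exact ⟨JetFn.stepPi hp hq hα ih.1, JetFn.stepBeta hp hq hα ih.1 ih.2.1,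
      Row1.step hp hq hα ih.1 ih.2.1 T ih.2.2⟩

/-- Two rows eliminate `u_y`. -/
theorem Row1.det {j : Fin 3} {π β π' β' : SF} (R : Row1 j π β) (R' : Row1 j π' β')
    (hπ : JetFn π) (hπ' : JetFn π') :
    InIm fun f W x => (π f x * β' f x - π' f x * β f x) * W x j :=
  ((InIm.mulFn R' hπ).sub (InIm.mulFn R hπ')).congr fun f W _ _ x => by ring

/-! ### Chart `D ≠ 0`, unknown `W₀` -/

/-- Transport coefficient. -/
noncomputable def pD : SF := fun f x => Del f x * (DD f x * DD f x)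
/-- Transport coefficient. -/
noncomputable def qD : SF := fun f x => -(Del f x * (DD f x * kk f x))
/-- Transport coefficient. -/
noncomputable def alD : SF := fun f x =>
  Del f x * (DD f x * pd 1 (kk f) x - pd 1 (DD f) x * kk f x)
    + DD f x * (B00 f x * DD f x - B01 f x * kk f x)
/-- First row. -/
noncomputable def piD : SF := fun f x =>
  -(DD f x * (Del f x * (kk f x * kk f x) - A11 f x * (kk f x * DD f x)
    + A10 f x * (DD f x * DD f x)))
/-- First row. -/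
noncomputable def beD : SF := fun f x =>
  DD f x * (DD f x * (B11 f x * kk f x - B10 f x * DD f x))
    - Del f x * (DD f x * (DD f x * pd 0 (kk f) x - pd 0 (DD f) x * kk f x))
    - kk f x * alD f x + A11 f x * (DD f x * (DD f x * pd 1 (kk f) x - pd 1 (DD f) x * kk f x))

theorem JetFn.pD : JetFn P205F.pD := JetFn.Del.mul (JetFn.DD.mul JetFn.DD)
theorem JetFn.qD : JetFn P205F.qD := (JetFn.Del.mul (JetFn.DD.mul JetFn.kk)).neg
theorem JetFn.alD : JetFn P205F.alD :=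
  (JetFn.Del.mul ((JetFn.DD.mul (JetFn.kk.pd 1)).sub ((JetFn.DD.pd 1).mul JetFn.kk))).add
    (JetFn.DD.mul ((JetFn.B00.mul JetFn.DD).sub (JetFn.B01.mul JetFn.kk)))
theorem JetFn.piD : JetFn P205F.piD :=
  (JetFn.DD.mul (((JetFn.Del.mul (JetFn.kk.mul JetFn.kk)).sub
    (JetFn.A11.mul (JetFn.kk.mul JetFn.DD))).add (JetFn.A10.mul (JetFn.DD.mul JetFn.DD)))).neg
theorem JetFn.beD : JetFn P205F.beD :=
  (((JetFn.DD.mul (JetFn.DD.mul ((JetFn.B11.mul JetFn.kk).sub (JetFn.B10.mul JetFn.DD)))).sub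
    (JetFn.Del.mul (JetFn.DD.mul ((JetFn.DD.mul (JetFn.kk.pd 0)).sub
      ((JetFn.DD.pd 0).mul JetFn.kk))))).sub (JetFn.kk.mul JetFn.alD)).add
    (JetFn.A11.mul (JetFn.DD.mul ((JetFn.DD.mul (JetFn.kk.pd 1)).sub
      ((JetFn.DD.pd 1).mul JetFn.kk))))

theorem pd_N {f : E2 → R4} {W : E2 → S3} (hf : ContDiff ℝ ∞ f) (hW : ContDiff ℝ ∞ W) (i : Fin 2)
    (x : E2) : pd i (fun z => kk f z * W z 0 + DD f z * W z 1) x =
      pd i (kk f) x * W x 0 + kk f x * dW i 0 W x + (pd i (DD f) x * W x 1 + DD f x * dW i 1 W x) := by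
  have w : ∀ j, ContDiff ℝ ∞ fun z => W z j := contDiff_pi.1 hW
  rw [pd_add ((JetFn.kk.smooth hf).mul (w 0)) ((JetFn.DD.smooth hf).mul (w 1)),
    pd_mul (JetFn.kk.smooth hf) (w 0), pd_mul (JetFn.DD.smooth hf) (w 1)]
  rfl

theorem transport_D : Transport 0 pD qD alD := by
  refine (((sys0.mulFn (JetFn.DD.mul JetFn.DD)).sub
    ((((eq_nu1.pd 1).mulFn JetFn.DD).sub (eq_nu1.mulFn (JetFn.DD.pd 1))).mulFn JetFn.Del)).add
    (eq_nu1.mulFn (JetFn.B01.mul JetFn.DD))).congr fun f W hf hW x => ?_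
  rw [pd_N hf hW]
  simp only [pD, qD, alD]
  ring

theorem row_D : Row1 0 piD beD := by
  refine (((((sys1.mulFn (JetFn.DD.mul (JetFn.DD.mul JetFn.DD))).sub
    ((((eq_nu1.pd 0).mulFn JetFn.DD).sub (eq_nu1.mulFn (JetFn.DD.pd 0))).mulFn
      (JetFn.Del.mul JetFn.DD))).add (InIm.mulFn transport_D JetFn.kk)).add
    ((((eq_nu1.pd 1).mulFn JetFn.DD).sub (eq_nu1.mulFn (JetFn.DD.pd 1))).mulFn
      (JetFn.A11.mul JetFn.DD))).add
    (eq_nu1.mulFn (JetFn.B11.mul (JetFn.DD.mul JetFn.DD)))).congr fun f W hf hW x => ?_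
  rw [pd_N hf hW, pd_N hf hW]
  simp only [pD, qD, piD, beD]
  ring

/-- Rows in the chart `D ≠ 0`. -/
noncomputable def rowsD : ℕ → SF × SF := rows pD qD alD (piD, beD)

theorem rowsD_jetFn (n : ℕ) : JetFn (rowsD n).1 ∧ JetFn (rowsD n).2 :=
  let h := rows_spec JetFn.pD JetFn.qD JetFn.alD (r := (piD, beD)) JetFn.piD JetFn.beD
    transport_D row_D n
  ⟨h.1, h.2.1⟩

theorem inIdl_D (m n : ℕ) : InIdl fun f x =>
    DD f x * ((rowsD m).1 f x * (rowsD n).2 f x - (rowsD n).1 f x * (rowsD m).2 f x) := by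
  have hm := rows_spec JetFn.pD JetFn.qD JetFn.alD (r := (piD, beD)) JetFn.piD JetFn.beD
    transport_D row_D m
  have hn := rows_spec JetFn.pD JetFn.qD JetFn.alD (r := (piD, beD)) JetFn.piD JetFn.beD
    transport_D row_D n
  have e₀ := Row1.det hm.2.2 hn.2.2 hm.1 hn.1
  have hφ := (hm.1.mul hn.2.1).sub (hn.1.mul hm.2.1)
  refine ⟨(e₀.mulFn JetFn.DD).congr fun f W _ _ x => ?_,
    ((eq_nu1.mulFn hφ).sub (e₀.mulFn JetFn.kk)).congr fun f W _ _ x => ?_⟩
  · simp [rowsD]; ring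
  · simp [rowsD]; ring

/-! ### Chart `k ≠ 0`, unknown `W₁` -/

/-- Transport coefficient. -/
noncomputable def pK : SF := fun f x => Del f x * (kk f x * kk f x)
/-- Transport coefficient. -/
noncomputable def qK : SF := fun f x => A10 f x * (kk f x * DD f x) - A11 f x * (kk f x * kk f x)
/-- Transport coefficient. -/
noncomputable def alK : SF := fun f x =>
  A10 f x * (pd 1 (kk f) x * DD f x - kk f x * pd 1 (DD f) x)
    + kk f x * (kk f x * B11 f x - B10 f x * DD f x)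
/-- First row. -/
noncomputable def piK : SF := fun f x =>
  kk f x * (Del f x * (kk f x * kk f x) - A11 f x * (kk f x * DD f x)
    + A10 f x * (DD f x * DD f x))
/-- First row. -/
noncomputable def beK : SF := fun f x =>
  kk f x * (kk f x * (B00 f x * DD f x - kk f x * B01 f x))
    - Del f x * (kk f x * (kk f x * pd 0 (DD f) x - pd 0 (kk f) x * DD f x)) - DD f x * alK f x

theorem JetFn.pK : JetFn P205F.pK := JetFn.Del.mul (JetFn.kk.mul JetFn.kk)
theorem JetFn.qK : JetFn P205F.qK :=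
  (JetFn.A10.mul (JetFn.kk.mul JetFn.DD)).sub (JetFn.A11.mul (JetFn.kk.mul JetFn.kk))
theorem JetFn.alK : JetFn P205F.alK :=
  (JetFn.A10.mul (((JetFn.kk.pd 1).mul JetFn.DD).sub (JetFn.kk.mul (JetFn.DD.pd 1)))).add
    (JetFn.kk.mul ((JetFn.kk.mul JetFn.B11).sub (JetFn.B10.mul JetFn.DD)))
theorem JetFn.piK : JetFn P205F.piK :=
  JetFn.kk.mul (((JetFn.Del.mul (JetFn.kk.mul JetFn.kk)).sub
    (JetFn.A11.mul (JetFn.kk.mul JetFn.DD))).add (JetFn.A10.mul (JetFn.DD.mul JetFn.DD)))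
theorem JetFn.beK : JetFn P205F.beK :=
  ((JetFn.kk.mul (JetFn.kk.mul ((JetFn.B00.mul JetFn.DD).sub (JetFn.kk.mul JetFn.B01)))).sub
    (JetFn.Del.mul (JetFn.kk.mul ((JetFn.kk.mul (JetFn.DD.pd 0)).sub
      ((JetFn.kk.pd 0).mul JetFn.DD))))).sub (JetFn.DD.mul JetFn.alK)

theorem transport_K : Transport 1 pK qK alK := by
  refine (((sys1.mulFn (JetFn.kk.mul JetFn.kk)).add
    ((((eq_nu1.pd 1).mulFn JetFn.kk).sub (eq_nu1.mulFn (JetFn.kk.pd 1))).mulFn JetFn.A10)).add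
    (eq_nu1.mulFn (JetFn.B10.mul JetFn.kk))).congr fun f W hf hW x => ?_
  rw [pd_N hf hW]
  simp only [pK, qK, alK]
  ring

theorem row_K : Row1 1 piK beK := by
  refine ((((sys0.mulFn (JetFn.kk.mul (JetFn.kk.mul JetFn.kk))).sub
    ((((eq_nu1.pd 0).mulFn JetFn.kk).sub (eq_nu1.mulFn (JetFn.kk.pd 0))).mulFn
      (JetFn.Del.mul JetFn.kk))).add (InIm.mulFn transport_K JetFn.DD)).add
    (eq_nu1.mulFn (JetFn.B00.mul (JetFn.kk.mul JetFn.kk)))).congr fun f W hf hW x => ?_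
  rw [pd_N hf hW]
  simp only [pK, qK, piK, beK]
  ring

/-- Rows in the chart `k ≠ 0`. -/
noncomputable def rowsK : ℕ → SF × SF := rows pK qK alK (piK, beK)

theorem rowsK_jetFn (n : ℕ) : JetFn (rowsK n).1 ∧ JetFn (rowsK n).2 :=
  let h := rows_spec JetFn.pK JetFn.qK JetFn.alK (r := (piK, beK)) JetFn.piK JetFn.beK
    transport_K row_K n
  ⟨h.1, h.2.1⟩

theorem inIdl_K (m n : ℕ) : InIdl fun f x =>
    kk f x * ((rowsK m).1 f x * (rowsK n).2 f x - (rowsK n).1 f x * (rowsK m).2 f x) := by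
  have hm := rows_spec JetFn.pK JetFn.qK JetFn.alK (r := (piK, beK)) JetFn.piK JetFn.beK
    transport_K row_K m
  have hn := rows_spec JetFn.pK JetFn.qK JetFn.alK (r := (piK, beK)) JetFn.piK JetFn.beK
    transport_K row_K n
  have e₁ := Row1.det hm.2.2 hn.2.2 hm.1 hn.1
  have hφ := (hm.1.mul hn.2.1).sub (hn.1.mul hm.2.1)
  refine ⟨((eq_nu1.mulFn hφ).sub (e₁.mulFn JetFn.DD)).congr fun f W _ _ x => ?_,
    (e₁.mulFn JetFn.kk).congr fun f W _ _ x => ?_⟩
  · simp [rowsK]; ring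
  · simp [rowsK]; ring

end Vale.Agent.P205F
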