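import Vale.Agent.P205F.GoodAlg.Sys

/-!
# P205, every closed surface: goodness where `II(∂y,∂y)` is small

`ω(u,v) = det(f_x, f_y, u, v)`. Where `D₂ = ω(f_xx, f_xy) ≠ 0` the unknowns `W₀, W₁` follow from
`z = W₂`, and two tangential equations, differentiated once, give two rows in `z, z_x`.
-/

namespace Vale.Agent.P205F

open scoped ContDiff RealInnerProductSpace

/-- `det(f_x, f_y, u, v)`. -/
noncomputable def omega (f : E2 → R4) (x : E2) (u v : R4) : ℝ :=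
  ⟪cross (pd 0 f x) (pd 1 f x) u, v⟫

/-- `ω(f_xx, f_xy)`. -/
noncomputable def D2 : SF := fun f x => omega f x (fxx f x) (fxy f x)
/-- `ω(f_yy, f_xy)`. -/
noncomputable def E1 : SF := fun f x => omega f x (fyy f x) (fxy f x)
/-- `ω(f_xx, f_yy)`. -/
noncomputable def EB : SF := fun f x => omega f x (fxx f x) (fyy f x)

theorem JetFn.omega {u v : (E2 → R4) → E2 → R4} (hu : JetFn u) (hv : JetFn v) :
    JetFn fun f x => P205F.omega f x (u f x) (v f x) :=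
  (JetFn.cross (JetFn.pd_self 0) (JetFn.pd_self 1) hu).inner hv

theorem JetFn.D2 : JetFn P205F.D2 := JetFn.omega JetFn.fxx JetFn.fxy
theorem JetFn.E1 : JetFn P205F.E1 := JetFn.omega JetFn.fyy JetFn.fxy
theorem JetFn.EB : JetFn P205F.EB := JetFn.omega JetFn.fxx JetFn.fyy

/-- `D₂ W₀ + E₁ z` is in the image. -/
theorem eq_u0 : InIm fun f W x => D2 f x * W x 0 + E1 f x * W x 2 := by
  refine (inIm_inner (JetFn.cross (JetFn.pd_self 0) (JetFn.pd_self 1) JetFn.fxy)).neg.congr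
    fun f W hf hW x => ?_
  simp only [Adj_eq hf hW, inner_add_right, inner_smul_right, cross_orth_left, cross_orth_mid,
    cross_orth_right]
  simp only [D2, E1, omega, cross_swap _ _ (fxy f x) (fxx f x), cross_swap _ _ (fxy f x) (fyy f x)]
  ring

/-- `2 D₂ W₁ + E₂ z` is in the image. -/
theorem eq_u1 : InIm fun f W x => 2 * D2 f x * W x 1 + EB f x * W x 2 := by
  refine (inIm_inner (JetFn.cross (JetFn.pd_self 0) (JetFn.pd_self 1) JetFn.fxx)).congr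
    fun f W hf hW x => ?_
  simp only [Adj_eq hf hW, inner_add_right, inner_smul_right, cross_orth_left, cross_orth_mid,
    cross_orth_right]
  simp only [D2, EB, omega]
  ring

/-- Coefficients of the first tangential equation in `z`: `φ z + a₁ z_x + a₂ z_y`. -/
noncomputable def sPhi : SF := fun f x =>
  gdet f x * (-2 * (D2 f x * pd 0 (E1 f) x - pd 0 (D2 f) x * E1 f x)
    - (D2 f x * pd 1 (EB f) x - pd 1 (D2 f) x * EB f x))
    + D2 f x * (-2 * gam f x 0 0 * E1 f x - gam f x 0 1 * EB f x + 2 * D2 f x * gam f x 0 2)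
/-- Coefficient. -/
noncomputable def sPsi : SF := fun f x =>
  -(gdet f x * (D2 f x * pd 0 (EB f) x - pd 0 (D2 f) x * EB f x))
    + D2 f x * (-2 * gam f x 1 0 * E1 f x - gam f x 1 1 * EB f x + 2 * D2 f x * gam f x 1 2)
/-- Coefficient. -/
noncomputable def sA1 : SF := fun f x => -2 * gdet f x * D2 f x * E1 f x
/-- Coefficient. -/
noncomputable def sA2 : SF := fun f x => -1 * gdet f x * D2 f x * EB f x
/-- Coefficient. -/
noncomputable def sC2 : SF := fun f x => 2 * gdet f x * D2 f x * D2 f x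
/-- First row, coefficient of `z`. -/
noncomputable def sP : SF := fun f x => sC2 f x * sPhi f x - sA2 f x * sPsi f x
/-- First row, coefficient of `z_x`. -/
noncomputable def sQ : SF := fun f x => sC2 f x * sA1 f x - sA2 f x * sA2 f x
/-- Second row, coefficient of `z`. -/
noncomputable def sL0 : SF := fun f x =>
  sC2 f x * (sC2 f x * pd 1 (sP f) x + sA2 f x * pd 0 (sP f) x - sP f x * sPsi f x)
    + sQ f x * (pd 0 (sC2 f) x * sPsi f x - sC2 f x * pd 0 (sPsi f) x)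
/-- Second row, coefficient of `z_x`. -/
noncomputable def sL1 : SF := fun f x =>
  sC2 f x * (sC2 f x * pd 1 (sQ f) x + sA2 f x * pd 0 (sQ f) x)
    + sQ f x * (pd 0 (sC2 f) x * sA2 f x - sC2 f x * pd 0 (sA2 f) x - sC2 f x * sPsi f x)
/-- The denominator. -/
noncomputable def sDen : SF := fun f x => sP f x * sL1 f x - sQ f x * sL0 f x

theorem JetFn.two : JetFn fun _ _ => (2 : ℝ) := JetFn.const 2

theorem JetFn.sPhi : JetFn P205F.sPhi :=
  (JetFn.gdet.mul ((((JetFn.const (-2 : ℝ)).mul ((JetFn.D2.mul (JetFn.E1.pd 0)).sub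
    ((JetFn.D2.pd 0).mul JetFn.E1)))).sub ((JetFn.D2.mul (JetFn.EB.pd 1)).sub
    ((JetFn.D2.pd 1).mul JetFn.EB)))).add (JetFn.D2.mul
    (((((JetFn.const (-2 : ℝ)).mul (JetFn.gam 0 0)).mul JetFn.E1).sub
      ((JetFn.gam 0 1).mul JetFn.EB)).add ((JetFn.two.mul JetFn.D2).mul (JetFn.gam 0 2))))
theorem JetFn.sPsi : JetFn P205F.sPsi :=
  (JetFn.gdet.mul ((JetFn.D2.mul (JetFn.EB.pd 0)).sub ((JetFn.D2.pd 0).mul JetFn.EB))).neg.add
    (JetFn.D2.mul (((((JetFn.const (-2 : ℝ)).mul (JetFn.gam 1 0)).mul JetFn.E1).sub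
      ((JetFn.gam 1 1).mul JetFn.EB)).add ((JetFn.two.mul JetFn.D2).mul (JetFn.gam 1 2))))
theorem JetFn.sA1 : JetFn P205F.sA1 :=
  (((JetFn.const (-2 : ℝ)).mul JetFn.gdet).mul JetFn.D2).mul JetFn.E1
theorem JetFn.sA2 : JetFn P205F.sA2 :=
  (((JetFn.const (-1 : ℝ)).mul JetFn.gdet).mul JetFn.D2).mul JetFn.EB
theorem JetFn.sC2 : JetFn P205F.sC2 :=
  ((JetFn.two.mul JetFn.gdet).mul JetFn.D2).mul JetFn.D2
theorem JetFn.sP : JetFn P205F.sP :=
  (JetFn.sC2.mul JetFn.sPhi).sub (JetFn.sA2.mul JetFn.sPsi)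
theorem JetFn.sQ : JetFn P205F.sQ :=
  (JetFn.sC2.mul JetFn.sA1).sub (JetFn.sA2.mul JetFn.sA2)
theorem JetFn.sL0 : JetFn P205F.sL0 :=
  (JetFn.sC2.mul (((JetFn.sC2.mul (JetFn.sP.pd 1)).add (JetFn.sA2.mul (JetFn.sP.pd 0))).sub
    (JetFn.sP.mul JetFn.sPsi))).add
    (JetFn.sQ.mul (((JetFn.sC2.pd 0).mul JetFn.sPsi).sub (JetFn.sC2.mul (JetFn.sPsi.pd 0))))
theorem JetFn.sL1 : JetFn P205F.sL1 :=
  (JetFn.sC2.mul ((JetFn.sC2.mul (JetFn.sQ.pd 1)).add (JetFn.sA2.mul (JetFn.sQ.pd 0)))).add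
    (JetFn.sQ.mul ((((JetFn.sC2.pd 0).mul JetFn.sA2).sub (JetFn.sC2.mul (JetFn.sA2.pd 0))).sub
      (JetFn.sC2.mul JetFn.sPsi)))
theorem JetFn.sDen : JetFn P205F.sDen :=
  (JetFn.sP.mul JetFn.sL1).sub (JetFn.sQ.mul JetFn.sL0)

theorem eq_sA : InIm fun f W x =>
    sPhi f x * W x 2 + sA1 f x * dW 0 2 W x + sA2 f x * dW 1 2 W x := by
  refine (((((eq_tan 0).mulFn (JetFn.two.mul (JetFn.D2.mul JetFn.D2))).sub
    ((((eq_u0.pd 0).mulFn JetFn.D2).sub (eq_u0.mulFn (JetFn.D2.pd 0))).mulFn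
      (JetFn.two.mul JetFn.gdet))).sub
    ((((eq_u1.pd 1).mulFn JetFn.D2).sub (eq_u1.mulFn (JetFn.D2.pd 1))).mulFn JetFn.gdet)).sub
    ((eq_u0.mulFn ((JetFn.two.mul JetFn.D2).mul (JetFn.gam 0 0))).add
      (eq_u1.mulFn (JetFn.D2.mul (JetFn.gam 0 1))))).congr fun f W hf hW x => ?_
  have w : ∀ j, ContDiff ℝ ∞ fun z => W z j := contDiff_pi.1 hW
  have d := JetFn.D2.smooth hf
  rw [pd_add (d.mul (w 0)) ((JetFn.E1.smooth hf).mul (w 2)),
    pd_add ((contDiff_const.mul d).mul (w 1)) ((JetFn.EB.smooth hf).mul (w 2)), pd_mul d (w 0),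
    pd_mul (JetFn.E1.smooth hf) (w 2), pd_mul (contDiff_const.mul d) (w 1), pd_const_mul _ d,
    pd_mul (JetFn.EB.smooth hf) (w 2)]
  simp only [Fin.isValue, ↓reduceIte, sPhi, sA1, sA2, dW]
  ring

theorem eq_sB : InIm fun f W x =>
    sPsi f x * W x 2 + sA2 f x * dW 0 2 W x + sC2 f x * dW 1 2 W x := by
  refine ((((eq_tan 1).mulFn (JetFn.two.mul (JetFn.D2.mul JetFn.D2))).sub
    ((((eq_u1.pd 0).mulFn JetFn.D2).sub (eq_u1.mulFn (JetFn.D2.pd 0))).mulFn JetFn.gdet)).sub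
    ((eq_u0.mulFn ((JetFn.two.mul JetFn.D2).mul (JetFn.gam 1 0))).add
      (eq_u1.mulFn (JetFn.D2.mul (JetFn.gam 1 1))))).congr fun f W hf hW x => ?_
  have w : ∀ j, ContDiff ℝ ∞ fun z => W z j := contDiff_pi.1 hW
  have d := JetFn.D2.smooth hf
  rw [pd_add ((contDiff_const.mul d).mul (w 1)) ((JetFn.EB.smooth hf).mul (w 2)),
    pd_mul (contDiff_const.mul d) (w 1), pd_const_mul _ d, pd_mul (JetFn.EB.smooth hf) (w 2)]
  simp only [Fin.isValue, one_ne_zero, ↓reduceIte, sPsi, sA2, sC2, dW]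
  ring

theorem row_sP : InIm fun f W x => sP f x * W x 2 + sQ f x * dW 0 2 W x :=
  ((eq_sA.mulFn JetFn.sC2).sub (eq_sB.mulFn JetFn.sA2)).congr fun f W _ _ x => by
    simp only [sP, sQ]; ring

theorem row_sL : InIm fun f W x => sL0 f x * W x 2 + sL1 f x * dW 0 2 W x := by
  refine (((((row_sP.pd 1).mulFn (JetFn.sC2.mul JetFn.sC2)).add
    ((row_sP.pd 0).mulFn (JetFn.sA2.mul JetFn.sC2))).sub
    (eq_sB.mulFn (JetFn.sC2.mul JetFn.sP))).sub
    (((eq_sB.pd 0).mulFn JetFn.sC2).sub (eq_sB.mulFn (JetFn.sC2.pd 0)) |>.mulFn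
      JetFn.sQ)).congr fun f W hf hW x => ?_
  have w : ContDiff ℝ ∞ fun z => W z 2 := contDiff_pi.1 hW 2
  have w₀ : ContDiff ℝ ∞ fun z => dW 0 2 W z := contDiff_pd w 0
  have w₁ : ContDiff ℝ ∞ fun z => dW 1 2 W z := contDiff_pd w 1
  have sp := JetFn.sP.smooth hf
  have sq := JetFn.sQ.smooth hf
  have sψ := JetFn.sPsi.smooth hf
  have sa := JetFn.sA2.smooth hf
  have sc := JetFn.sC2.smooth hf
  rw [pd_add (sp.mul w) (sq.mul w₀), pd_add (sp.mul w) (sq.mul w₀), pd_mul sp w, pd_mul sp w,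
    pd_mul sq w₀, pd_mul sq w₀, pd_add ((sψ.mul w).add (sa.mul w₀)) (sc.mul w₁),
    pd_add (sψ.mul w) (sa.mul w₀), pd_mul sψ w, pd_mul sa w₀, pd_mul sc w₁]
  have e : pd 1 (fun z => dW 0 2 W z) x = pd 0 (fun z => dW 1 2 W z) x := pd_comm w 1 0 x
  simp only [sL0, sL1, dW] at e ⊢
  rw [e]
  ring

/-- The identity for small `II(∂y,∂y)`. -/
theorem exists_ident_small : ∃ I : Ident, ∀ f x, ContDiff ℝ ∞ f →
    I.den (jet I.N f x) = (2 * D2 f x * sDen f x) ^ 2 := by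
  refine exists_ident_of_inIm ((JetFn.two.mul JetFn.D2).mul JetFn.sDen) ?_
  have z : InIm fun f W x => sDen f x * W x 2 :=
    ((row_sP.mulFn JetFn.sL1).sub (row_sL.mulFn JetFn.sQ)).congr fun f W _ _ x => by
      simp only [sDen]; ring
  have c₀ := ((eq_u0.mulFn JetFn.sDen).sub (z.mulFn JetFn.E1)).mulFn JetFn.two
  have c₁ := (eq_u1.mulFn JetFn.sDen).sub (z.mulFn JetFn.EB)
  have c₂ := z.mulFn (JetFn.two.mul JetFn.D2)
  have s : ∀ (j : Fin 3) {Φ : (E2 → R4) → (E2 → S3) → E2 → ℝ}, InIm Φ →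
      InIm fun f W x => Φ f W x • (Pi.single j (1 : ℝ) : S3) := fun j _ hΦ =>
    (hΦ.clm ((ContinuousLinearMap.id ℝ ℝ).smulRight (Pi.single j (1 : ℝ) : S3))).congr
      fun _ _ _ _ _ => rfl
  refine (((s 0 c₀).add (s 1 c₁)).add (s 2 c₂)).congr fun f W _ _ x => ?_
  funext j
  fin_cases j <;> simp <;> ring

end Vale.Agent.P205F
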