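import Vale.Agent.P205F.GoodAlg.Im

/-!
# P205, every closed surface: derivatives of `c • (U ∘ σ)` are linear in those of `U`
-/

set_option maxSynthPendingDepth 3

namespace Vale.Agent.P205F

open scoped ContDiff

section Abstract

variable {E F G H K : Type*} [NormedAddCommGroup E] [NormedSpace ℝ E] [NormedAddCommGroup F]
  [NormedSpace ℝ F] [NormedAddCommGroup G] [NormedSpace ℝ G] [NormedAddCommGroup H]
  [NormedSpace ℝ H] [NormedAddCommGroup K] [NormedSpace ℝ K]

/-- `m ↦ e (a ∘ (C m) ∘ s)`. -/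
noncomputable def opA (e : (E →L[ℝ] G) →L[ℝ] H) (C : K →L[ℝ] (E →L[ℝ] F)) (a : F →L[ℝ] G)
    (s : E →L[ℝ] E) : K →L[ℝ] H :=
  e.comp ((ContinuousLinearMap.compL ℝ E F G a).comp
    (((ContinuousLinearMap.compL ℝ E E F).flip s).comp C))

theorem opA_apply (e : (E →L[ℝ] G) →L[ℝ] H) (C : K →L[ℝ] (E →L[ℝ] F)) (a : F →L[ℝ] G)
    (s : E →L[ℝ] E) (m : K) : opA e C a s m = e (a.comp ((C m).comp s)) := rfl

theorem contDiff_opA (e : (E →L[ℝ] G) →L[ℝ] H) (C : K →L[ℝ] (E →L[ℝ] F))
    {a : E → (F →L[ℝ] G)} {s : E → (E →L[ℝ] E)} (ha : ContDiff ℝ ∞ a) (hs : ContDiff ℝ ∞ s) :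
    ContDiff ℝ ∞ fun u => opA e C (a u) (s u) :=
  contDiff_const.clm_comp (((ContinuousLinearMap.compL ℝ E F G).contDiff.comp ha).clm_comp
    ((((ContinuousLinearMap.compL ℝ E E F).flip).contDiff.comp hs).clm_comp contDiff_const))

/-- `m ↦ e (a'ᵀ m)`. -/
noncomputable def opB (e : (E →L[ℝ] G) →L[ℝ] H) (a' : E →L[ℝ] F →L[ℝ] G) : F →L[ℝ] H :=
  e.comp a'.flip

theorem contDiff_opB (e : (E →L[ℝ] G) →L[ℝ] H) {a' : E → (E →L[ℝ] F →L[ℝ] G)}
    (ha : ContDiff ℝ ∞ a') : ContDiff ℝ ∞ fun u => opB e (a' u) :=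
  contDiff_const.clm_comp
    ((ContinuousLinearMap.flipₗᵢ ℝ E F G).toContinuousLinearEquiv.toContinuousLinearMap.contDiff.comp
      ha)

end Abstract

variable {X : Type*} [NormedAddCommGroup X] [NormedSpace ℝ X]

/-- Values `D^j U ↦ D^k (c • (U ∘ σ))`. -/
abbrev JMap (j k : ℕ) (X : Type*) [NormedAddCommGroup X] [NormedSpace ℝ X] : Type _ :=
  ContinuousMultilinearMap ℝ (fun _ : Fin j => E2) X →L[ℝ]
    ContinuousMultilinearMap ℝ (fun _ : Fin k => E2) X

/-- Faa di Bruno in the only form we need. -/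
theorem exists_jmap {σ : E2 → E2} (hσ : ContDiff ℝ ∞ σ) {c : E2 → ℝ} (hc : ContDiff ℝ ∞ c)
    (k : ℕ) : ∃ A : (j : ℕ) → E2 → JMap j k X, (∀ j, ContDiff ℝ ∞ (A j)) ∧
      ∀ U : E2 → X, ContDiff ℝ ∞ U → ∀ u,
        iteratedFDeriv ℝ k (fun z => c z • U (σ z)) u =
          ∑ j ∈ Finset.range (k + 1), A j u (iteratedFDeriv ℝ j U (σ u)) := by
  induction k with
  | zero =>
    refine ⟨fun j u => if h : j = 0 then
        c u • (h.symm ▸ ContinuousLinearMap.id ℝ (ContinuousMultilinearMap ℝ
          (fun _ : Fin 0 => E2) X) : JMap j 0 X) else 0, fun j => ?_, fun U _ u => ?_⟩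
    · by_cases h : j = 0
      · subst h
        simp only [dite_true]
        exact hc.smul contDiff_const
      · simp only [h, dite_false]
        exact contDiff_const
    · ext m
      simp
  | succ k ih =>
    obtain ⟨A, hA, hAe⟩ := ih
    set e : (E2 →L[ℝ] ContinuousMultilinearMap ℝ (fun _ : Fin k => E2) X) →L[ℝ]
        ContinuousMultilinearMap ℝ (fun _ : Fin (k + 1) => E2) X :=
      (continuousMultilinearCurryLeftEquiv ℝ (fun _ : Fin (k + 1) => E2)
        X).symm.toContinuousLinearEquiv.toContinuousLinearMap with he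
    set C : (j : ℕ) → (ContinuousMultilinearMap ℝ (fun _ : Fin (j + 1) => E2) X →L[ℝ]
        (E2 →L[ℝ] ContinuousMultilinearMap ℝ (fun _ : Fin j => E2) X)) := fun j =>
      (continuousMultilinearCurryLeftEquiv ℝ (fun _ : Fin (j + 1) => E2)
        X).toContinuousLinearEquiv.toContinuousLinearMap with hC
    set B₀ : (j : ℕ) → E2 → JMap j (k + 1) X := fun j u =>
      if j < k + 1 then opB e (fderiv ℝ (A j) u) else 0 with hB₀
    set B₁ : (j : ℕ) → E2 → JMap j (k + 1) X := fun j u =>
      match j with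
      | 0 => 0
      | i + 1 => if i < k + 1 then opA e (C i) (A i u) (fderiv ℝ σ u) else 0 with hB₁
    refine ⟨fun j u => B₀ j u + B₁ j u, fun j => ContDiff.add ?_ ?_, fun U hU u => ?_⟩
    · by_cases hj : j < k + 1
      · simp only [hB₀, hj, if_true]
        exact contDiff_opB e ((hA j).fderiv_right (by exact_mod_cast le_top))
      · simp only [hB₀, hj, if_false]
        exact contDiff_const
    · cases j with
      | zero => simp only [hB₁]; exact contDiff_const
      | succ i =>
        by_cases hi : i < k + 1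
        · simp only [hB₁, hi, if_true]
          exact contDiff_opA e (C i) (hA i) (hσ.fderiv_right (by exact_mod_cast le_top))
        · simp only [hB₁, hi, if_false]
          exact contDiff_const
    · have hd : ∀ j, Differentiable ℝ fun z => iteratedFDeriv ℝ j U z := fun j =>
        (hU.iteratedFDeriv_right (m := ∞) (by exact_mod_cast le_top)).differentiable (by simp)
      have hA' : ∀ j, DifferentiableAt ℝ (A j) u := fun j => (hA j).differentiable (by simp) u
      have hσ' : DifferentiableAt ℝ σ u := hσ.differentiable (by simp) u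
      have hcomp : ∀ j, DifferentiableAt ℝ (fun z => iteratedFDeriv ℝ j U (σ z)) u := fun j =>
        (hd j (σ u)).comp u hσ'
      have step : fderiv ℝ (iteratedFDeriv ℝ k fun z => c z • U (σ z)) u =
          ∑ j ∈ Finset.range (k + 1), ((A j u).comp ((C j (iteratedFDeriv ℝ (j + 1) U (σ u))).comp
            (fderiv ℝ σ u)) + (fderiv ℝ (A j) u).flip (iteratedFDeriv ℝ j U (σ u))) := by
        rw [show (iteratedFDeriv ℝ k fun z => c z • U (σ z)) = fun z =>
            ∑ j ∈ Finset.range (k + 1), A j z (iteratedFDeriv ℝ j U (σ z)) from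
          funext fun z => hAe U hU z, fderiv_fun_sum fun j _ => (hA' j).clm_apply (hcomp j)]
        refine Finset.sum_congr rfl fun j _ => ?_
        rw [fderiv_clm_apply (hA' j) (hcomp j),
          show (fun z => iteratedFDeriv ℝ j U (σ z)) = (fun y => iteratedFDeriv ℝ j U y) ∘ σ from rfl,
          fderiv_comp u (hd j (σ u)) hσ']
        congr 2
      rw [show iteratedFDeriv ℝ (k + 1) (fun z => c z • U (σ z)) u =
          e (fderiv ℝ (iteratedFDeriv ℝ k fun z => c z • U (σ z)) u) from rfl, step, map_sum]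
      simp only [_root_.add_apply, Finset.sum_add_distrib, map_add]
      rw [Finset.sum_range_succ (fun j => B₀ j u _), Finset.sum_range_succ' (fun j => B₁ j u _)]
      simp only [hB₀, hB₁, lt_irrefl, if_false, _root_.zero_apply, add_zero]
      refine (add_comm _ _).trans ?_
      congr 1
      · exact Finset.sum_congr rfl fun j hj => by simp [Finset.mem_range.1 hj, opB]
      · exact Finset.sum_congr rfl fun j hj => by simp [Finset.mem_range.1 hj, opA_apply]

end Vale.Agent.P205F
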