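import Vale.Agent.P205F.GoodAlg.Sys

/-!
# P205, every closed surface: goodness where `N = (k, D)` is small

Four rows linear in `(k, D)` are in the module: `N`, `Ψ` (from the second derivatives of `N W`,
`W_y` removed by Cramer) and the two derived rows of `φ₁ = det[N; Ψ]`. Their six determinants are
quadrics in `(k, D)`; three independent ones give `θ D'²`, and differentiation gives `θ⁴ Q³`.
-/

namespace Vale.Agent.P205F

open scoped ContDiff RealInnerProductSpace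

/-- First component of `N A`. -/
noncomputable def nA0 : SF := fun f x => DD f x * A10 f x
/-- Second component of `N A`. -/
noncomputable def nA1 : SF := fun f x => -(Del f x * kk f x) + DD f x * A11 f x
/-- First component of `δ N_x + N B`. -/
noncomputable def rB0 : SF := fun f x =>
  Del f x * pd 0 (kk f) x + kk f x * B00 f x + DD f x * B10 f x
/-- Second component of `δ N_x + N B`. -/
noncomputable def rB1 : SF := fun f x =>
  Del f x * pd 0 (DD f) x + kk f x * B01 f x + DD f x * B11 f x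

theorem JetFn.nA0 : JetFn P205F.nA0 := JetFn.DD.mul JetFn.A10
theorem JetFn.nA1 : JetFn P205F.nA1 := (JetFn.Del.mul JetFn.kk).neg.add (JetFn.DD.mul JetFn.A11)
theorem JetFn.rB0 : JetFn P205F.rB0 :=
  ((JetFn.Del.mul (JetFn.kk.pd 0)).add (JetFn.kk.mul JetFn.B00)).add (JetFn.DD.mul JetFn.B10)
theorem JetFn.rB1 : JetFn P205F.rB1 :=
  ((JetFn.Del.mul (JetFn.DD.pd 0)).add (JetFn.kk.mul JetFn.B01)).add (JetFn.DD.mul JetFn.B11)

/-- `∂x (N W)`, with `W_x` replaced. -/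
theorem eq_rx : InIm fun f W x => nA0 f x * dW 1 0 W x + nA1 f x * dW 1 1 W x
    + rB0 f x * W x 0 + rB1 f x * W x 1 := by
  refine ((((eq_nu1.pd 0).mulFn JetFn.Del).sub (sys0.mulFn JetFn.kk)).sub
    (sys1.mulFn JetFn.DD)).congr fun f W hf hW x => ?_
  have w : ∀ j, ContDiff ℝ ∞ fun z => W z j := contDiff_pi.1 hW
  rw [pd_add ((JetFn.kk.smooth hf).mul (w 0)) ((JetFn.DD.smooth hf).mul (w 1)),
    pd_mul (JetFn.kk.smooth hf) (w 0), pd_mul (JetFn.DD.smooth hf) (w 1)]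
  simp only [nA0, nA1, rB0, rB1, dW]
  ring

/-- `∂y (N W)`. -/
theorem eq_ry : InIm fun f W x => kk f x * dW 1 0 W x + DD f x * dW 1 1 W x
    + pd 1 (kk f) x * W x 0 + pd 1 (DD f) x * W x 1 := by
  refine (eq_nu1.pd 1).congr fun f W hf hW x => ?_
  have w : ∀ j, ContDiff ℝ ∞ fun z => W z j := contDiff_pi.1 hW
  rw [pd_add ((JetFn.kk.smooth hf).mul (w 0)) ((JetFn.DD.smooth hf).mul (w 1)),
    pd_mul (JetFn.kk.smooth hf) (w 0), pd_mul (JetFn.DD.smooth hf) (w 1)]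
  simp only [dW]
  ring

/-- Coefficient of `W₀,y` in `P(d)(N W)`. -/
noncomputable def Gc0 : SF := fun f x =>
  Del f x * Del f x * pd 0 (nA0 f) x
    + Del f x * (nA1 f x * pd 1 (A10 f) x + (nA0 f x * B00 f x + nA1 f x * B10 f x))
    - pd 1 (Del f) x * (nA1 f x * A10 f x) + Del f x * (rB1 f x * A10 f x)
    - Del f x * A11 f x * (pd 1 (nA0 f) x + rB0 f x)
    + 2 * (Del f x * Del f x * A10 f x) * pd 1 (kk f) x
/-- Coefficient of `W₁,y` in `P(d)(N W)`. -/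
noncomputable def Gc1 : SF := fun f x =>
  Del f x * Del f x * pd 0 (nA1 f) x
    + Del f x * (nA1 f x * pd 1 (A11 f) x - nA0 f x * pd 1 (Del f) x
      + (nA0 f x * B01 f x + nA1 f x * B11 f x))
    - pd 1 (Del f) x * (nA1 f x * A11 f x - nA0 f x * Del f x)
    + Del f x * (rB1 f x * A11 f x - rB0 f x * Del f x)
    - Del f x * A11 f x * (pd 1 (nA1 f) x + rB1 f x)
    + 2 * (Del f x * Del f x * A10 f x) * pd 1 (DD f) x
/-- Coefficient of `W₀` in `P(d)(N W)`. -/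
noncomputable def Hc0 : SF := fun f x =>
  Del f x * Del f x * pd 0 (rB0 f) x
    + Del f x * (nA0 f x * pd 1 (B00 f) x + nA1 f x * pd 1 (B10 f) x)
    - pd 1 (Del f) x * (nA0 f x * B00 f x + nA1 f x * B10 f x)
    + Del f x * (rB0 f x * B00 f x + rB1 f x * B10 f x)
    - Del f x * A11 f x * pd 1 (rB0 f) x
    + Del f x * Del f x * A10 f x * pd 1 (fun z => pd 1 (kk f) z) x
/-- Coefficient of `W₁` in `P(d)(N W)`. -/
noncomputable def Hc1 : SF := fun f x =>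
  Del f x * Del f x * pd 0 (rB1 f) x
    + Del f x * (nA0 f x * pd 1 (B01 f) x + nA1 f x * pd 1 (B11 f) x)
    - pd 1 (Del f) x * (nA0 f x * B01 f x + nA1 f x * B11 f x)
    + Del f x * (rB0 f x * B01 f x + rB1 f x * B11 f x)
    - Del f x * A11 f x * pd 1 (rB1 f) x
    + Del f x * Del f x * A10 f x * pd 1 (fun z => pd 1 (DD f) z) x

theorem JetFn.Gc0 : JetFn P205F.Gc0 :=
  (((((JetFn.Del.mul JetFn.Del).mul (JetFn.nA0.pd 0)).add
    (JetFn.Del.mul ((JetFn.nA1.mul (JetFn.A10.pd 1)).add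
      ((JetFn.nA0.mul JetFn.B00).add (JetFn.nA1.mul JetFn.B10))))).sub
    ((JetFn.Del.pd 1).mul (JetFn.nA1.mul JetFn.A10))).add
    (JetFn.Del.mul (JetFn.rB1.mul JetFn.A10))).sub
    ((JetFn.Del.mul JetFn.A11).mul ((JetFn.nA0.pd 1).add JetFn.rB0)) |>.add
    (((JetFn.const (2 : ℝ)).mul ((JetFn.Del.mul JetFn.Del).mul JetFn.A10)).mul (JetFn.kk.pd 1))
theorem JetFn.Gc1 : JetFn P205F.Gc1 :=
  (((((JetFn.Del.mul JetFn.Del).mul (JetFn.nA1.pd 0)).add
    (JetFn.Del.mul (((JetFn.nA1.mul (JetFn.A11.pd 1)).sub (JetFn.nA0.mul (JetFn.Del.pd 1))).add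
      ((JetFn.nA0.mul JetFn.B01).add (JetFn.nA1.mul JetFn.B11))))).sub
    ((JetFn.Del.pd 1).mul ((JetFn.nA1.mul JetFn.A11).sub (JetFn.nA0.mul JetFn.Del)))).add
    (JetFn.Del.mul ((JetFn.rB1.mul JetFn.A11).sub (JetFn.rB0.mul JetFn.Del)))).sub
    ((JetFn.Del.mul JetFn.A11).mul ((JetFn.nA1.pd 1).add JetFn.rB1)) |>.add
    (((JetFn.const (2 : ℝ)).mul ((JetFn.Del.mul JetFn.Del).mul JetFn.A10)).mul (JetFn.DD.pd 1))
theorem JetFn.Hc0 : JetFn P205F.Hc0 :=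
  (((((JetFn.Del.mul JetFn.Del).mul (JetFn.rB0.pd 0)).add
    (JetFn.Del.mul ((JetFn.nA0.mul (JetFn.B00.pd 1)).add (JetFn.nA1.mul (JetFn.B10.pd 1))))).sub
    ((JetFn.Del.pd 1).mul ((JetFn.nA0.mul JetFn.B00).add (JetFn.nA1.mul JetFn.B10)))).add
    (JetFn.Del.mul ((JetFn.rB0.mul JetFn.B00).add (JetFn.rB1.mul JetFn.B10)))).sub
    ((JetFn.Del.mul JetFn.A11).mul (JetFn.rB0.pd 1)) |>.add
    (((JetFn.Del.mul JetFn.Del).mul JetFn.A10).mul ((JetFn.kk.pd 1).pd 1))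
theorem JetFn.Hc1 : JetFn P205F.Hc1 :=
  (((((JetFn.Del.mul JetFn.Del).mul (JetFn.rB1.pd 0)).add
    (JetFn.Del.mul ((JetFn.nA0.mul (JetFn.B01.pd 1)).add (JetFn.nA1.mul (JetFn.B11.pd 1))))).sub
    ((JetFn.Del.pd 1).mul ((JetFn.nA0.mul JetFn.B01).add (JetFn.nA1.mul JetFn.B11)))).add
    (JetFn.Del.mul ((JetFn.rB0.mul JetFn.B01).add (JetFn.rB1.mul JetFn.B11)))).sub
    ((JetFn.Del.mul JetFn.A11).mul (JetFn.rB1.pd 1)) |>.add
    (((JetFn.Del.mul JetFn.Del).mul JetFn.A10).mul ((JetFn.DD.pd 1).pd 1))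

/-- `P(d)(N W)`: no second derivatives of `W` (Cayley-Hamilton). -/
theorem eq_C2 : InIm fun f W x => Gc0 f x * dW 1 0 W x + Gc1 f x * dW 1 1 W x
    + Hc0 f x * W x 0 + Hc1 f x * W x 1 := by
  refine ((((((eq_rx.pd 0).mulFn (JetFn.Del.mul JetFn.Del)).sub
    ((eq_rx.pd 1).mulFn (JetFn.Del.mul JetFn.A11))).add
    ((eq_ry.pd 1).mulFn ((JetFn.Del.mul JetFn.Del).mul JetFn.A10))).sub
    (((sys0.pd 1).mulFn JetFn.nA0).add ((sys1.pd 1).mulFn JetFn.nA1) |>.mulFn JetFn.Del)).add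
    ((sys0.mulFn JetFn.nA0).add (sys1.mulFn JetFn.nA1) |>.mulFn (JetFn.Del.pd 1))).sub
    ((sys0.mulFn JetFn.rB0).add (sys1.mulFn JetFn.rB1) |>.mulFn JetFn.Del)
    |>.congr fun f W hf hW x => ?_
  have w : ∀ j, ContDiff ℝ ∞ fun z => W z j := contDiff_pi.1 hW
  have d : ∀ i j, ContDiff ℝ ∞ fun z => dW i j W z := fun i j => contDiff_pd (w j) i
  have sd := JetFn.Del.smooth hf
  have k₁ : ContDiff ℝ ∞ fun z => pd 1 (kk f) z := contDiff_pd (JetFn.kk.smooth hf) 1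
  have D₁ : ContDiff ℝ ∞ fun z => pd 1 (DD f) z := contDiff_pd (JetFn.DD.smooth hf) 1
  have r₀ : ∀ i : Fin 2, pd i (fun z => nA0 f z * dW 1 0 W z + nA1 f z * dW 1 1 W z
      + rB0 f z * W z 0 + rB1 f z * W z 1) x =
      pd i (nA0 f) x * dW 1 0 W x + nA0 f x * pd i (fun z => dW 1 0 W z) x
      + (pd i (nA1 f) x * dW 1 1 W x + nA1 f x * pd i (fun z => dW 1 1 W z) x)
      + (pd i (rB0 f) x * W x 0 + rB0 f x * dW i 0 W x)
      + (pd i (rB1 f) x * W x 1 + rB1 f x * dW i 1 W x) := fun i => by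
    rw [pd_add ((((JetFn.nA0.smooth hf).mul (d 1 0)).add ((JetFn.nA1.smooth hf).mul (d 1 1))).add
        ((JetFn.rB0.smooth hf).mul (w 0))) ((JetFn.rB1.smooth hf).mul (w 1)),
      pd_add (((JetFn.nA0.smooth hf).mul (d 1 0)).add ((JetFn.nA1.smooth hf).mul (d 1 1)))
        ((JetFn.rB0.smooth hf).mul (w 0)),
      pd_add ((JetFn.nA0.smooth hf).mul (d 1 0)) ((JetFn.nA1.smooth hf).mul (d 1 1)),
      pd_mul (JetFn.nA0.smooth hf) (d 1 0), pd_mul (JetFn.nA1.smooth hf) (d 1 1),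
      pd_mul (JetFn.rB0.smooth hf) (w 0), pd_mul (JetFn.rB1.smooth hf) (w 1)]
    rfl
  rw [r₀, r₀]
  rw [pd_add ((((JetFn.kk.smooth hf).mul (d 1 0)).add ((JetFn.DD.smooth hf).mul (d 1 1))).add
      (k₁.mul (w 0))) (D₁.mul (w 1)),
    pd_add (((JetFn.kk.smooth hf).mul (d 1 0)).add ((JetFn.DD.smooth hf).mul (d 1 1)))
      (k₁.mul (w 0)),
    pd_add ((JetFn.kk.smooth hf).mul (d 1 0)) ((JetFn.DD.smooth hf).mul (d 1 1)),
    pd_mul (JetFn.kk.smooth hf) (d 1 0), pd_mul (JetFn.DD.smooth hf) (d 1 1), pd_mul k₁ (w 0),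
    pd_mul D₁ (w 1),
    pd_sub (((sd.mul (d 0 0)).add (sd.mul (d 1 1))).sub ((JetFn.B00.smooth hf).mul (w 0)))
      ((JetFn.B01.smooth hf).mul (w 1)),
    pd_sub ((sd.mul (d 0 0)).add (sd.mul (d 1 1))) ((JetFn.B00.smooth hf).mul (w 0)),
    pd_add (sd.mul (d 0 0)) (sd.mul (d 1 1)), pd_mul sd (d 0 0), pd_mul sd (d 1 1),
    pd_mul (JetFn.B00.smooth hf) (w 0), pd_mul (JetFn.B01.smooth hf) (w 1),
    pd_sub ((((sd.mul (d 0 1)).sub ((JetFn.A10.smooth hf).mul (d 1 0))).sub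
      ((JetFn.A11.smooth hf).mul (d 1 1))).sub ((JetFn.B10.smooth hf).mul (w 0)))
      ((JetFn.B11.smooth hf).mul (w 1)),
    pd_sub (((sd.mul (d 0 1)).sub ((JetFn.A10.smooth hf).mul (d 1 0))).sub
      ((JetFn.A11.smooth hf).mul (d 1 1))) ((JetFn.B10.smooth hf).mul (w 0)),
    pd_sub ((sd.mul (d 0 1)).sub ((JetFn.A10.smooth hf).mul (d 1 0)))
      ((JetFn.A11.smooth hf).mul (d 1 1)),
    pd_sub (sd.mul (d 0 1)) ((JetFn.A10.smooth hf).mul (d 1 0)), pd_mul sd (d 0 1),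
    pd_mul (JetFn.A10.smooth hf) (d 1 0), pd_mul (JetFn.A11.smooth hf) (d 1 1),
    pd_mul (JetFn.B10.smooth hf) (w 0), pd_mul (JetFn.B11.smooth hf) (w 1)]
  have e : ∀ j, pd 1 (fun z => dW 0 j W z) x = pd 0 (fun z => dW 1 j W z) x := fun j =>
    pd_comm (w j) 1 0 x
  rw [e 0, e 1]
  simp only [Gc0, Gc1, Hc0, Hc1, nA0, nA1, dW]
  ring

/-- A row `k (u₀, u₁) + D (v₀, v₁)`. -/
structure LinRow where
  /-- coefficient of `k` -/
  u₀ : SF
  /-- coefficient of `k` -/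
  u₁ : SF
  /-- coefficient of `D` -/
  v₀ : SF
  /-- coefficient of `D` -/
  v₁ : SF

/-- Value of a row. -/
noncomputable def LinRow.c₀ (R : LinRow) : SF := fun f x => kk f x * R.u₀ f x + DD f x * R.v₀ f x
/-- Value of a row. -/
noncomputable def LinRow.c₁ (R : LinRow) : SF := fun f x => kk f x * R.u₁ f x + DD f x * R.v₁ f x

/-- A usable row. -/
structure LinRow.Ok (R : LinRow) : Prop where
  u₀ : JetFn R.u₀
  u₁ : JetFn R.u₁
  v₀ : JetFn R.v₀
  v₁ : JetFn R.v₁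
  mem : InMod R.c₀ R.c₁

/-- The coefficients of `k², kD, D²` in the determinant of two rows. -/
noncomputable def quad (R S : LinRow) : Fin 3 → SF :=
  ![fun f x => R.u₀ f x * S.u₁ f x - R.u₁ f x * S.u₀ f x,
    fun f x => (R.u₀ f x * S.v₁ f x - R.u₁ f x * S.v₀ f x)
      + (R.v₀ f x * S.u₁ f x - R.v₁ f x * S.u₀ f x),
    fun f x => R.v₀ f x * S.v₁ f x - R.v₁ f x * S.v₀ f x]

theorem quad_jetFn {R S : LinRow} (hR : R.Ok) (hS : S.Ok) (j : Fin 3) : JetFn (quad R S j) := by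
  fin_cases j
  · exact (hR.u₀.mul hS.u₁).sub (hR.u₁.mul hS.u₀)
  · exact ((hR.u₀.mul hS.v₁).sub (hR.u₁.mul hS.v₀)).add
      ((hR.v₀.mul hS.u₁).sub (hR.v₁.mul hS.u₀))
  · exact (hR.v₀.mul hS.v₁).sub (hR.v₁.mul hS.v₀)

theorem quad_inIdl {R S : LinRow} (hR : R.Ok) (hS : S.Ok) : InIdl fun f x =>
    quad R S 0 f x * (kk f x * kk f x) + quad R S 1 f x * (kk f x * DD f x)
      + quad R S 2 f x * (DD f x * DD f x) := by
  refine (InMod.det hR.mem hS.mem ((JetFn.kk.mul hR.u₀).add (JetFn.DD.mul hR.v₀))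
    ((JetFn.kk.mul hR.u₁).add (JetFn.DD.mul hR.v₁))
    ((JetFn.kk.mul hS.u₀).add (JetFn.DD.mul hS.v₀))
    ((JetFn.kk.mul hS.u₁).add (JetFn.DD.mul hS.v₁))).congr fun f x _ => ?_
  simp [quad, LinRow.c₀, LinRow.c₁]
  ring

/-- `N`. -/
noncomputable def rowN : LinRow := ⟨fun _ _ => 1, fun _ _ => 0, fun _ _ => 0, fun _ _ => 1⟩

theorem rowN_ok : rowN.Ok :=
  ⟨JetFn.const 1, JetFn.const 0, JetFn.const 0, JetFn.const 1,
    inMod_N.congr (fun f x _ => by simp [rowN, LinRow.c₀]) fun f x _ => by simp [rowN, LinRow.c₁]⟩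

/-- `Ψ`. -/
noncomputable def rowPsi : LinRow :=
  ⟨fun f x => (-(Del f x * kk f x) + A11 f x * DD f x) * Hc0 f x
      + Del f x * Gc0 f x * pd 1 (kk f) x - Gc1 f x * rB0 f x,
    fun f x => (-(Del f x * kk f x) + A11 f x * DD f x) * Hc1 f x
      + Del f x * Gc0 f x * pd 1 (DD f) x - Gc1 f x * rB1 f x,
    fun f x => -(A10 f x * DD f x * Hc0 f x)
      - (A11 f x * Gc0 f x - A10 f x * Gc1 f x) * pd 1 (kk f) x + Gc0 f x * rB0 f x,
    fun f x => -(A10 f x * DD f x * Hc1 f x)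
      - (A11 f x * Gc0 f x - A10 f x * Gc1 f x) * pd 1 (DD f) x + Gc0 f x * rB1 f x⟩

theorem rowPsi_ok : rowPsi.Ok := by
  have a := (JetFn.Del.mul JetFn.kk).neg.add (JetFn.A11.mul JetFn.DD)
  have b := (JetFn.A11.mul JetFn.Gc0).sub (JetFn.A10.mul JetFn.Gc1)
  refine ⟨((a.mul JetFn.Hc0).add ((JetFn.Del.mul JetFn.Gc0).mul (JetFn.kk.pd 1))).sub
      (JetFn.Gc1.mul JetFn.rB0),
    ((a.mul JetFn.Hc1).add ((JetFn.Del.mul JetFn.Gc0).mul (JetFn.DD.pd 1))).sub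
      (JetFn.Gc1.mul JetFn.rB1),
    ((((JetFn.A10.mul JetFn.DD).mul JetFn.Hc0).neg).sub (b.mul (JetFn.kk.pd 1))).add
      (JetFn.Gc0.mul JetFn.rB0),
    ((((JetFn.A10.mul JetFn.DD).mul JetFn.Hc1).neg).sub (b.mul (JetFn.DD.pd 1))).add
      (JetFn.Gc0.mul JetFn.rB1), ?_⟩
  refine (((eq_C2.mulFn ((JetFn.kk.mul JetFn.nA1).sub (JetFn.DD.mul JetFn.nA0))).sub
    (eq_ry.mulFn ((JetFn.Gc0.mul JetFn.nA1).sub (JetFn.Gc1.mul JetFn.nA0)))).sub
    (eq_rx.mulFn ((JetFn.kk.mul JetFn.Gc1).sub (JetFn.DD.mul JetFn.Gc0)))).congr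
    fun f W _ _ x => ?_
  simp only [rowPsi, LinRow.c₀, LinRow.c₁, nA0, nA1]
  ring

/-- `φ₁ = det[N; Ψ]`. -/
noncomputable def phi1 : SF := fun f x =>
  quad rowN rowPsi 0 f x * (kk f x * kk f x) + quad rowN rowPsi 1 f x * (kk f x * DD f x)
    + quad rowN rowPsi 2 f x * (DD f x * DD f x)

theorem JetFn.phi1 : JetFn P205F.phi1 :=
  (((quad_jetFn rowN_ok rowPsi_ok 0).mul (JetFn.kk.mul JetFn.kk)).add
    ((quad_jetFn rowN_ok rowPsi_ok 1).mul (JetFn.kk.mul JetFn.DD))).add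
    ((quad_jetFn rowN_ok rowPsi_ok 2).mul (JetFn.DD.mul JetFn.DD))

/-- The coefficient of `k` in a derivative of `φ₁`. -/
noncomputable def phiU (i : Fin 2) : SF := fun f x =>
  pd i (quad rowN rowPsi 0 f) x * kk f x + pd i (quad rowN rowPsi 1 f) x * DD f x
    + 2 * quad rowN rowPsi 0 f x * pd i (kk f) x + quad rowN rowPsi 1 f x * pd i (DD f) x
/-- The coefficient of `D` in a derivative of `φ₁`. -/
noncomputable def phiV (i : Fin 2) : SF := fun f x =>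
  pd i (quad rowN rowPsi 2 f) x * DD f x + quad rowN rowPsi 1 f x * pd i (kk f) x
    + 2 * quad rowN rowPsi 2 f x * pd i (DD f) x

theorem JetFn.phiU (i : Fin 2) : JetFn (P205F.phiU i) :=
  let q := quad_jetFn rowN_ok rowPsi_ok
  ((((q 0).pd i).mul JetFn.kk).add (((q 1).pd i).mul JetFn.DD)).add
    (((JetFn.const (2 : ℝ)).mul (q 0)).mul (JetFn.kk.pd i)) |>.add ((q 1).mul (JetFn.DD.pd i))
theorem JetFn.phiV (i : Fin 2) : JetFn (P205F.phiV i) :=
  let q := quad_jetFn rowN_ok rowPsi_ok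
  ((((q 2).pd i).mul JetFn.DD).add ((q 1).mul (JetFn.kk.pd i))).add
    (((JetFn.const (2 : ℝ)).mul (q 2)).mul (JetFn.DD.pd i))

theorem pd_phi1 {f : E2 → R4} (hf : ContDiff ℝ ∞ f) (i : Fin 2) (x : E2) :
    pd i (phi1 f) x = kk f x * phiU i f x + DD f x * phiV i f x := by
  have q := fun j => (quad_jetFn rowN_ok rowPsi_ok j).smooth hf
  have k := JetFn.kk.smooth hf
  have D := JetFn.DD.smooth hf
  show pd i (fun z => quad rowN rowPsi 0 f z * (kk f z * kk f z)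
    + quad rowN rowPsi 1 f z * (kk f z * DD f z)
    + quad rowN rowPsi 2 f z * (DD f z * DD f z)) x = _
  rw [pd_add (((q 0).mul (k.mul k)).add ((q 1).mul (k.mul D))) ((q 2).mul (D.mul D)),
    pd_add ((q 0).mul (k.mul k)) ((q 1).mul (k.mul D)), pd_mul (q 0) (k.mul k),
    pd_mul (q 1) (k.mul D), pd_mul (q 2) (D.mul D), pd_mul k k, pd_mul k D, pd_mul D D]
  simp only [phiU, phiV]
  ring

/-- First row of `δ φ₁,x 1 - φ₁,y A`. -/
noncomputable def rowR0 : LinRow :=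
  ⟨fun f x => Del f x * phiU 0 f x, fun f x => Del f x * phiU 1 f x,
    fun f x => Del f x * phiV 0 f x, fun f x => Del f x * phiV 1 f x⟩
/-- Second row of `δ φ₁,x 1 - φ₁,y A`. -/
noncomputable def rowR1 : LinRow :=
  ⟨fun f x => -(phiU 1 f x * A10 f x), fun f x => Del f x * phiU 0 f x - phiU 1 f x * A11 f x,
    fun f x => -(phiV 1 f x * A10 f x), fun f x => Del f x * phiV 0 f x - phiV 1 f x * A11 f x⟩

theorem phi1_inIdl : InIdl phi1 :=
  (quad_inIdl rowN_ok rowPsi_ok).congr fun _ _ _ => rfl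

theorem rowR0_ok : rowR0.Ok :=
  ⟨JetFn.Del.mul (JetFn.phiU 0), JetFn.Del.mul (JetFn.phiU 1), JetFn.Del.mul (JetFn.phiV 0),
    JetFn.Del.mul (JetFn.phiV 1), (phi1_inIdl.deriv JetFn.phi1).1.congr
      (fun f x hf => by simp [rowR0, LinRow.c₀, pd_phi1 hf]; ring)
      (fun f x hf => by simp [rowR0, LinRow.c₁, pd_phi1 hf]; ring)⟩

theorem rowR1_ok : rowR1.Ok :=
  ⟨((JetFn.phiU 1).mul JetFn.A10).neg,
    (JetFn.Del.mul (JetFn.phiU 0)).sub ((JetFn.phiU 1).mul JetFn.A11),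
    ((JetFn.phiV 1).mul JetFn.A10).neg,
    (JetFn.Del.mul (JetFn.phiV 0)).sub ((JetFn.phiV 1).mul JetFn.A11),
    (phi1_inIdl.deriv JetFn.phi1).2.congr
      (fun f x hf => by simp [rowR1, LinRow.c₀, pd_phi1 hf]; ring)
      (fun f x hf => by simp [rowR1, LinRow.c₁, pd_phi1 hf]; ring)⟩

/-- The six quadrics: pairs from `N, Ψ, R₀, R₁`. -/
noncomputable def qC : Fin 6 → Fin 3 → SF :=
  ![quad rowN rowPsi, quad rowN rowR0, quad rowN rowR1, quad rowPsi rowR0, quad rowPsi rowR1,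
    quad rowR0 rowR1]

theorem qC_spec (i : Fin 6) : (∀ j, JetFn (qC i j)) ∧ InIdl fun f x =>
    qC i 0 f x * (kk f x * kk f x) + qC i 1 f x * (kk f x * DD f x)
      + qC i 2 f x * (DD f x * DD f x) := by
  fin_cases i
  · exact ⟨quad_jetFn rowN_ok rowPsi_ok, quad_inIdl rowN_ok rowPsi_ok⟩
  · exact ⟨quad_jetFn rowN_ok rowR0_ok, quad_inIdl rowN_ok rowR0_ok⟩
  · exact ⟨quad_jetFn rowN_ok rowR1_ok, quad_inIdl rowN_ok rowR1_ok⟩
  · exact ⟨quad_jetFn rowPsi_ok rowR0_ok, quad_inIdl rowPsi_ok rowR0_ok⟩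
  · exact ⟨quad_jetFn rowPsi_ok rowR1_ok, quad_inIdl rowPsi_ok rowR1_ok⟩
  · exact ⟨quad_jetFn rowR0_ok rowR1_ok, quad_inIdl rowR0_ok rowR1_ok⟩

/-- A `3 × 3` minor of the coefficient matrix. -/
noncomputable def minor (a b c : Fin 6) : SF := fun f x =>
  qC a 0 f x * (qC b 1 f x * qC c 2 f x - qC b 2 f x * qC c 1 f x)
    - qC a 1 f x * (qC b 0 f x * qC c 2 f x - qC b 2 f x * qC c 0 f x)
    + qC a 2 f x * (qC b 0 f x * qC c 1 f x - qC b 1 f x * qC c 0 f x)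

theorem JetFn.minor (a b c : Fin 6) : JetFn (P205F.minor a b c) :=
  let j := fun i k => (qC_spec i).1 k
  (((j a 0).mul (((j b 1).mul (j c 2)).sub ((j b 2).mul (j c 1)))).sub
    ((j a 1).mul (((j b 0).mul (j c 2)).sub ((j b 2).mul (j c 0))))).add
    ((j a 2).mul (((j b 0).mul (j c 1)).sub ((j b 1).mul (j c 0))))

/-- A minor times `(D + t k)²` is in the ideal. -/
theorem minor_inIdl (a b c : Fin 6) (t : ℝ) : InIdl fun f x =>
    minor a b c f x * ((DD f x + t * kk f x) * (DD f x + t * kk f x)) := by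
  have j := fun i k => (qC_spec i).1 k
  have two_t : JetFn fun _ _ => 2 * t := JetFn.const _
  have tt : JetFn fun _ _ => t * t := JetFn.const _
  have co : ∀ p q r : Fin 6, JetFn fun f x =>
      t * t * (qC q 1 f x * qC r 2 f x - qC q 2 f x * qC r 1 f x)
      - 2 * t * (qC q 0 f x * qC r 2 f x - qC q 2 f x * qC r 0 f x)
      + (qC q 0 f x * qC r 1 f x - qC q 1 f x * qC r 0 f x) := fun p q r =>
    ((tt.mul (((j q 1).mul (j r 2)).sub ((j q 2).mul (j r 1)))).sub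
      (two_t.mul (((j q 0).mul (j r 2)).sub ((j q 2).mul (j r 0))))).add
      (((j q 0).mul (j r 1)).sub ((j q 1).mul (j r 0)))
  refine ((((qC_spec a).2.mulFn (co a b c)).add ((qC_spec b).2.mulFn (co b c a))).add
    ((qC_spec c).2.mulFn (co c a b))).congr fun f x _ => ?_
  simp only [minor]
  ring

/-- `det(δ u_x - u_y A)` for `u = D + t k`. -/
noncomputable def Qf (t : ℝ) : SF := fun f x =>
  Del f x * (Del f x * ((pd 0 (DD f) x + t * pd 0 (kk f) x) * (pd 0 (DD f) x + t * pd 0 (kk f) x))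
    - A11 f x * ((pd 0 (DD f) x + t * pd 0 (kk f) x) * (pd 1 (DD f) x + t * pd 1 (kk f) x))
    + A10 f x * ((pd 1 (DD f) x + t * pd 1 (kk f) x) * (pd 1 (DD f) x + t * pd 1 (kk f) x)))

theorem JetFn.Qf (t : ℝ) : JetFn (P205F.Qf t) :=
  let e := fun i : Fin 2 => (JetFn.DD.pd i).add ((JetFn.const t).mul (JetFn.kk.pd i))
  JetFn.Del.mul (((JetFn.Del.mul ((e 0).mul (e 0))).sub (JetFn.A11.mul ((e 0).mul (e 1)))).add
    (JetFn.A10.mul ((e 1).mul (e 1))))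

/-- If `θ u ∈ I` and `∇u = c ∇(D + t k)` then `θ² c Qf ∈ I`. -/
theorem descend {θ u c : SF} (t : ℝ) (h : InIdl fun f x => θ f x * u f x) (hθ : JetFn θ)
    (hu : JetFn u)
    (hdu : ∀ f x, ContDiff ℝ ∞ f → ∀ i,
      pd i (u f) x = c f x * (pd i (DD f) x + t * pd i (kk f) x)) :
    InIdl fun f x => θ f x * θ f x * c f x * Qf t f x := by
  have e := fun i : Fin 2 => (JetFn.DD.pd i).add ((JetFn.const t).mul (JetFn.kk.pd i))
  obtain ⟨r₀, r₁⟩ := h.deriv (hθ.mul hu)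
  have s₀ : InMod (fun f x => θ f x * θ f x * c f x *
        (Del f x * (pd 0 (DD f) x + t * pd 0 (kk f) x)))
      (fun f x => θ f x * θ f x * c f x * (Del f x * (pd 1 (DD f) x + t * pd 1 (kk f) x))) := by
    refine ((r₀.mulFn hθ).add (((h.mulFn ((JetFn.Del.mul (hθ.pd 0)).neg)).1).add
      ((h.mulFn ((JetFn.Del.mul (hθ.pd 1)).neg)).2))).congr (fun f x hf => ?_) fun f x hf => ?_
    all_goals
      rw [pd_mul (hθ.smooth hf) (hu.smooth hf), hdu f x hf]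
      simp
      ring
  have s₁ : InMod (fun f x => θ f x * θ f x * c f x *
        -((pd 1 (DD f) x + t * pd 1 (kk f) x) * A10 f x))
      (fun f x => θ f x * θ f x * c f x * (Del f x * (pd 0 (DD f) x + t * pd 0 (kk f) x)
        - (pd 1 (DD f) x + t * pd 1 (kk f) x) * A11 f x)) := by
    refine ((r₁.mulFn hθ).add (((h.mulFn ((hθ.pd 1).mul JetFn.A10)).1).add
      ((h.mulFn ((JetFn.Del.mul (hθ.pd 0)).sub ((hθ.pd 1).mul JetFn.A11)).neg).2))).congr
      (fun f x hf => ?_) fun f x hf => ?_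
    · rw [pd_mul (hθ.smooth hf) (hu.smooth hf), hdu f x hf]
      simp
      ring
    · rw [pd_mul (hθ.smooth hf) (hu.smooth hf), pd_mul (hθ.smooth hf) (hu.smooth hf), hdu f x hf,
        hdu f x hf]
      simp
      ring
  have a₀ := s₀.mulFn ((JetFn.Del.mul (e 0)).sub ((e 1).mul JetFn.A11))
  have b₀ := s₁.mulFn ((JetFn.Del.mul (e 1)).neg)
  have a₁ := s₁.mulFn (JetFn.Del.mul (e 0))
  have b₁ := s₀.mulFn ((e 1).mul JetFn.A10)
  exact ⟨(a₀.add b₀).congr (fun f x _ => by simp only [Qf]; ring)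
      (fun f x _ => by simp only [Pi.zero_apply]; ring),
    (a₁.add b₁).congr (fun f x _ => by simp only [Pi.zero_apply]; ring)
      (fun f x _ => by simp only [Qf]; ring)⟩

theorem pd_lin {f : E2 → R4} (hf : ContDiff ℝ ∞ f) (t : ℝ) (i : Fin 2) (x : E2) :
    pd i (fun z => DD f z + t * kk f z) x = pd i (DD f) x + t * pd i (kk f) x := by
  rw [pd_add (JetFn.DD.smooth hf) (contDiff_const.mul (JetFn.kk.smooth hf)),
    pd_const_mul _ (JetFn.kk.smooth hf)]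

/-- The element `θ⁴ Q³` of the ideal (up to the constant `4`). -/
noncomputable def g2Den (a b c : Fin 6) (t : ℝ) : SF := fun f x =>
  (minor a b c f x * minor a b c f x * 2 * Qf t f x) *
    (minor a b c f x * minor a b c f x * 2 * Qf t f x) * Qf t f x

theorem JetFn.g2Den (a b c : Fin 6) (t : ℝ) : JetFn (P205F.g2Den a b c t) :=
  let h := (((JetFn.minor a b c).mul (JetFn.minor a b c)).mul (JetFn.const (2 : ℝ))).mul (JetFn.Qf t)
  (h.mul h).mul (JetFn.Qf t)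

/-- Descent: three independent quadrics and `Qf ≠ 0` give goodness. -/
theorem g2Den_inIdl (a b c : Fin 6) (t : ℝ) : InIdl (g2Den a b c t) := by
  have hl : JetFn fun f x => DD f x + t * kk f x :=
    JetFn.DD.add ((JetFn.const t).mul JetFn.kk)
  have h₁ : InIdl fun f x => minor a b c f x * minor a b c f x *
      (2 * (DD f x + t * kk f x)) * Qf t f x :=
    descend (c := fun f x => 2 * (DD f x + t * kk f x)) t (minor_inIdl a b c t) (JetFn.minor a b c)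
      (hl.mul hl) fun f x hf i => by
        rw [pd_mul (hl.smooth hf) (hl.smooth hf), pd_lin hf]
        ring
  have hθ : JetFn fun f x => minor a b c f x * minor a b c f x * 2 * Qf t f x :=
    (((JetFn.minor a b c).mul (JetFn.minor a b c)).mul (JetFn.const (2 : ℝ))).mul (JetFn.Qf t)
  have h₂ := descend (u := fun f x => DD f x + t * kk f x) (c := fun _ _ => (1 : ℝ)) t
    (h₁.congr (ψ := fun f x => minor a b c f x * minor a b c f x * 2 * Qf t f x *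
      (DD f x + t * kk f x)) fun f x _ => by ring) hθ hl
    fun f x hf i => by simp [pd_lin hf]
  exact h₂.congr fun f x _ => by simp [g2Den]

end Vale.Agent.P205F
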