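import Vale.Agent.P205F.GoodAlg.G2

/-!
# P205, every closed surface: the minor `(0,1,3)` at `N = 0`

`minor 0 1 3 = lim013 + k X + D Y` with `lim013` a polynomial in `δ, A₁₀, A₁₁, ∇k, ∇D` only; in the
third jets `(p, q, 0, 0)` it has the constant coefficient `-32` at `p^8 q^2`.
-/

namespace Vale.Agent.P205F

open scoped ContDiff RealInnerProductSpace

/-- Variables at `N = 0`: `δ, A₁₀, A₁₁, k_x, k_y, D_x, D_y`. -/
structure ZVar where
  /-- `δ` -/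
  δ : ℝ
  /-- `A₁₀` -/
  a : ℝ
  /-- `A₁₁` -/
  b : ℝ
  /-- `k_x` -/
  kx : ℝ
  /-- `k_y` -/
  ky : ℝ
  /-- `D_x` -/
  Dx : ℝ
  /-- `D_y` -/
  Dy : ℝ

namespace ZVar

variable (z : ZVar)

/-- `Gc0` at `N = 0`. -/
def g0 : ℝ := z.δ * z.δ * (2 * z.Dx * z.a - z.b * z.kx + 2 * z.a * z.ky) - z.δ * z.b * z.a * z.Dy
/-- `Gc1` at `N = 0`. -/
def g1 : ℝ :=
  z.δ * z.δ * (-(2 * z.δ * z.kx) + z.b * z.Dx + z.b * z.ky + 2 * z.a * z.Dy)
    - z.δ * z.b * z.b * z.Dy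
/-- `Ψ` at `N = 0`. -/
def pu0 : ℝ := z.δ * z.g0 * z.ky - z.g1 * (z.δ * z.kx)
/-- `Ψ` at `N = 0`. -/
def pu1 : ℝ := z.δ * z.g0 * z.Dy - z.g1 * (z.δ * z.Dx)
/-- `Ψ` at `N = 0`. -/
def pv0 : ℝ := -((z.b * z.g0 - z.a * z.g1) * z.ky) + z.g0 * (z.δ * z.kx)
/-- `Ψ` at `N = 0`. -/
def pv1 : ℝ := -((z.b * z.g0 - z.a * z.g1) * z.Dy) + z.g0 * (z.δ * z.Dx)
/-- Coefficient of `k²` in `φ₁`. -/
def q0 : ℝ := z.pu1
/-- Coefficient of `kD` in `φ₁`. -/
def q1 : ℝ := z.pv1 - z.pu0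
/-- Coefficient of `D²` in `φ₁`. -/
def q2 : ℝ := -z.pv0
/-- `R₀` at `N = 0`. -/
def ru0 : ℝ := z.δ * (2 * z.q0 * z.kx + z.q1 * z.Dx)
/-- `R₀` at `N = 0`. -/
def ru1 : ℝ := z.δ * (2 * z.q0 * z.ky + z.q1 * z.Dy)
/-- `R₀` at `N = 0`. -/
def rv0 : ℝ := z.δ * (z.q1 * z.kx + 2 * z.q2 * z.Dx)
/-- `R₀` at `N = 0`. -/
def rv1 : ℝ := z.δ * (z.q1 * z.ky + 2 * z.q2 * z.Dy)

/-- The minor at `N = 0`. -/
def lim013 : ℝ :=
  z.q0 * ((z.rv1 - z.ru0) * (z.pv0 * z.rv1 - z.pv1 * z.rv0)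
      + z.rv0 * ((z.pu0 * z.rv1 - z.pu1 * z.rv0) + (z.pv0 * z.ru1 - z.pv1 * z.ru0)))
    - z.q1 * (z.ru1 * (z.pv0 * z.rv1 - z.pv1 * z.rv0) + z.rv0 * (z.pu0 * z.ru1 - z.pu1 * z.ru0))
    + z.q2 * (z.ru1 * ((z.pu0 * z.rv1 - z.pu1 * z.rv0) + (z.pv0 * z.ru1 - z.pv1 * z.ru0))
      - (z.rv1 - z.ru0) * (z.pu0 * z.ru1 - z.pu1 * z.ru0))

/-- The seven variables of the third jets `(p,q,0,0)` for `δ`, `d/b = d`, `c/b = c`. -/
def ofPQ (δ c d p q : ℝ) : ZVar := ⟨δ, δ * d, 2 * (δ * c), p, q, 2 * q, 0⟩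

/-- The leading coefficient `-32` at `p^8 q^2` does not depend on `c`, `d`. -/
theorem lim013_ofPQ (δ c d p q : ℝ) : (ofPQ δ c d p q).lim013 = δ ^ 18 *
    (-32 * p ^ 8 * q ^ 2 + -608 * d * p ^ 6 * q ^ 4 + -3168 * d ^ 2 * p ^ 4 * q ^ 6
    + -2592 * d ^ 3 * p ^ 2 * q ^ 8 + 768 * c * p ^ 7 * q ^ 3 + 10944 * c * d * p ^ 5 * q ^ 5
    + 38016 * c * d ^ 2 * p ^ 3 * q ^ 7 + 15552 * c * d ^ 3 * p * q ^ 9
    + -7456 * c ^ 2 * p ^ 6 * q ^ 4 + -75744 * c ^ 2 * d * p ^ 4 * q ^ 6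
    + -163296 * c ^ 2 * d ^ 2 * p ^ 2 * q ^ 8 + -23328 * c ^ 2 * d ^ 3 * q ^ 10
    + 37440 * c ^ 3 * p ^ 5 * q ^ 5 + 252288 * c ^ 3 * d * p ^ 3 * q ^ 7
    + 295488 * c ^ 3 * d ^ 2 * p * q ^ 9 + -102528 * c ^ 4 * p ^ 4 * q ^ 6
    + -404352 * c ^ 4 * d * p ^ 2 * q ^ 8 + -186624 * c ^ 4 * d ^ 2 * q ^ 10
    + 145152 * c ^ 5 * p ^ 3 * q ^ 7 + 248832 * c ^ 5 * d * p * q ^ 9
    + -82944 * c ^ 6 * p ^ 2 * q ^ 8) := by
  simp only [lim013, ru0, ru1, rv0, rv1, q0, q1, q2, pu0, pu1, pv0, pv1, g0, g1, ofPQ]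
  ring

end ZVar

/-- The variables of a map. -/
noncomputable def zvar (f : E2 → R4) (x : E2) : ZVar :=
  ⟨Del f x, A10 f x, A11 f x, pd 0 (kk f) x, pd 1 (kk f) x, pd 0 (DD f) x, pd 1 (DD f) x⟩

/-- Equality modulo `N`. -/
def ModN (c c' : SF) : Prop :=
  ∃ X Y : SF, JetFn X ∧ JetFn Y ∧
    ∀ f x, ContDiff ℝ ∞ f → c f x = c' f x + kk f x * X f x + DD f x * Y f x

theorem ModN.refl (c : SF) : ModN c c :=
  ⟨fun _ _ => 0, fun _ _ => 0, .const 0, .const 0, fun _ _ _ => by simp⟩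

theorem ModN.add {a a' b b' : SF} (h : ModN a a') (h' : ModN b b') :
    ModN (fun f x => a f x + b f x) fun f x => a' f x + b' f x :=
  let ⟨X, Y, hX, hY, e⟩ := h
  let ⟨X', Y', hX', hY', e'⟩ := h'
  ⟨fun f x => X f x + X' f x, fun f x => Y f x + Y' f x, hX.add hX', hY.add hY',
    fun f x hf => by simp only [e f x hf, e' f x hf]; ring⟩

theorem ModN.neg {a a' : SF} (h : ModN a a') : ModN (fun f x => -a f x) fun f x => -a' f x :=
  let ⟨X, Y, hX, hY, e⟩ := h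
  ⟨fun f x => -X f x, fun f x => -Y f x, hX.neg, hY.neg,
    fun f x hf => by simp only [e f x hf]; ring⟩

theorem ModN.sub {a a' b b' : SF} (h : ModN a a') (h' : ModN b b') :
    ModN (fun f x => a f x - b f x) fun f x => a' f x - b' f x := by
  simpa [sub_eq_add_neg] using h.add h'.neg

theorem ModN.mul {a a' b b' : SF} (h : ModN a a') (h' : ModN b b') (ha : JetFn a') (hb : JetFn b) :
    ModN (fun f x => a f x * b f x) fun f x => a' f x * b' f x :=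
  let ⟨X, Y, hX, hY, e⟩ := h
  let ⟨X', Y', hX', hY', e'⟩ := h'
  ⟨fun f x => X f x * b f x + a' f x * X' f x, fun f x => Y f x * b f x + a' f x * Y' f x,
    (hX.mul hb).add (ha.mul hX'), (hY.mul hb).add (ha.mul hY'),
    fun f x hf => by simp only [e f x hf, e' f x hf]; ring⟩

theorem modN_rB0 : ModN rB0 fun f x => Del f x * pd 0 (kk f) x :=
  ⟨B00, B10, .B00, .B10, fun f x _ => by simp only [rB0]⟩

theorem modN_rB1 : ModN rB1 fun f x => Del f x * pd 0 (DD f) x :=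
  ⟨B01, B11, .B01, .B11, fun f x _ => by simp only [rB1]⟩

theorem modN_Gc0 : ModN Gc0 fun f x => (zvar f x).g0 := by
  obtain ⟨X, Y, hX, hY, e⟩ : ModN Gc0 fun f x =>
      Del f x * Del f x * (pd 0 (DD f) x * A10 f x) + Del f x * (Del f x * pd 0 (DD f) x * A10 f x)
      - Del f x * A11 f x * (pd 1 (DD f) x * A10 f x + Del f x * pd 0 (kk f) x)
      + 2 * (Del f x * Del f x * A10 f x) * pd 1 (kk f) x := by
    refine ⟨fun f x => -(Del f x * Del f x * pd 1 (A10 f) x) - Del f x * Del f x * B10 f x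
        + pd 1 (Del f) x * (Del f x * A10 f x) + Del f x * B01 f x * A10 f x
        - Del f x * A11 f x * B00 f x,
      fun f x => Del f x * Del f x * pd 0 (A10 f) x + Del f x * A11 f x * pd 1 (A10 f) x
        + Del f x * A10 f x * B00 f x + Del f x * A11 f x * B10 f x
        - pd 1 (Del f) x * (A11 f x * A10 f x) + Del f x * B11 f x * A10 f x
        - Del f x * A11 f x * (pd 1 (A10 f) x + B10 f x), ?_, ?_, fun f x hf => ?_⟩
    · exact (((((JetFn.Del.mul JetFn.Del).mul (JetFn.A10.pd 1)).neg.sub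
        ((JetFn.Del.mul JetFn.Del).mul JetFn.B10)).add
        ((JetFn.Del.pd 1).mul (JetFn.Del.mul JetFn.A10))).add
        ((JetFn.Del.mul JetFn.B01).mul JetFn.A10)).sub
        ((JetFn.Del.mul JetFn.A11).mul JetFn.B00)
    · exact ((((((JetFn.Del.mul JetFn.Del).mul (JetFn.A10.pd 0)).add
        ((JetFn.Del.mul JetFn.A11).mul (JetFn.A10.pd 1))).add
        ((JetFn.Del.mul JetFn.A10).mul JetFn.B00)).add
        ((JetFn.Del.mul JetFn.A11).mul JetFn.B10)).sub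
        ((JetFn.Del.pd 1).mul (JetFn.A11.mul JetFn.A10))).add
        ((JetFn.Del.mul JetFn.B11).mul JetFn.A10) |>.sub
        ((JetFn.Del.mul JetFn.A11).mul ((JetFn.A10.pd 1).add JetFn.B10))
    · have h : ∀ i, pd i (nA0 f) x = pd i (DD f) x * A10 f x + DD f x * pd i (A10 f) x :=
        fun i => pd_mul (JetFn.DD.smooth hf) (JetFn.A10.smooth hf) i x
      simp only [Gc0, h, nA0, nA1, rB0, rB1]
      ring
  exact ⟨X, Y, hX, hY, fun f x hf => by rw [e f x hf]; simp only [ZVar.g0, zvar]; ring⟩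

theorem modN_Gc1 : ModN Gc1 fun f x => (zvar f x).g1 := by
  refine ⟨fun f x => -(Del f x * Del f x * pd 0 (Del f) x) - Del f x * Del f x * pd 1 (A11 f) x
      - Del f x * Del f x * B11 f x + pd 1 (Del f) x * (Del f x * A11 f x)
      + Del f x * (B01 f x * A11 f x - B00 f x * Del f x)
      - Del f x * A11 f x * (-pd 1 (Del f) x + B01 f x),
    fun f x => Del f x * Del f x * pd 0 (A11 f) x
      + Del f x * (A11 f x * pd 1 (A11 f) x - A10 f x * pd 1 (Del f) x + A10 f x * B01 f x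
        + A11 f x * B11 f x)
      - pd 1 (Del f) x * (A11 f x * A11 f x - A10 f x * Del f x)
      + Del f x * (B11 f x * A11 f x - B10 f x * Del f x)
      - Del f x * A11 f x * (pd 1 (A11 f) x + B11 f x), ?_, ?_, fun f x hf => ?_⟩
  · exact (((((JetFn.Del.mul JetFn.Del).mul (JetFn.Del.pd 0)).neg.sub
      ((JetFn.Del.mul JetFn.Del).mul (JetFn.A11.pd 1))).sub
      ((JetFn.Del.mul JetFn.Del).mul JetFn.B11)).add
      ((JetFn.Del.pd 1).mul (JetFn.Del.mul JetFn.A11))).add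
      (JetFn.Del.mul ((JetFn.B01.mul JetFn.A11).sub (JetFn.B00.mul JetFn.Del))) |>.sub
      ((JetFn.Del.mul JetFn.A11).mul ((JetFn.Del.pd 1).neg.add JetFn.B01))
  · exact (((((JetFn.Del.mul JetFn.Del).mul (JetFn.A11.pd 0)).add
      (JetFn.Del.mul ((((JetFn.A11.mul (JetFn.A11.pd 1)).sub (JetFn.A10.mul (JetFn.Del.pd 1))).add
        (JetFn.A10.mul JetFn.B01)).add (JetFn.A11.mul JetFn.B11)))).sub
      ((JetFn.Del.pd 1).mul ((JetFn.A11.mul JetFn.A11).sub (JetFn.A10.mul JetFn.Del)))).add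
      (JetFn.Del.mul ((JetFn.B11.mul JetFn.A11).sub (JetFn.B10.mul JetFn.Del)))).sub
      ((JetFn.Del.mul JetFn.A11).mul ((JetFn.A11.pd 1).add JetFn.B11))
  · have h : ∀ i, pd i (nA1 f) x = -(pd i (Del f) x * kk f x + Del f x * pd i (kk f) x)
        + (pd i (DD f) x * A11 f x + DD f x * pd i (A11 f) x) := fun i => by
      show pd i (fun z => -(Del f z * kk f z) + DD f z * A11 f z) x = _
      rw [pd_add ((JetFn.Del.smooth hf).mul (JetFn.kk.smooth hf)).neg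
          ((JetFn.DD.smooth hf).mul (JetFn.A11.smooth hf)),
        show (fun z => -(Del f z * kk f z)) = fun z => (-1 : ℝ) * (Del f z * kk f z) from
          funext fun z => by ring,
        pd_const_mul _ ((JetFn.Del.smooth hf).mul (JetFn.kk.smooth hf)),
        pd_mul (JetFn.Del.smooth hf) (JetFn.kk.smooth hf),
        pd_mul (JetFn.DD.smooth hf) (JetFn.A11.smooth hf)]
      ring
    simp only [Gc1, h, nA0, nA1, rB0, rB1, ZVar.g1, zvar]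
    ring

theorem jetFn_g0 : JetFn fun f x => (zvar f x).g0 :=
  (((JetFn.Del.mul JetFn.Del).mul ((((JetFn.const (2 : ℝ)).mul (JetFn.DD.pd 0)).mul JetFn.A10).sub
    (JetFn.A11.mul (JetFn.kk.pd 0)) |>.add (((JetFn.const (2 : ℝ)).mul JetFn.A10).mul
      (JetFn.kk.pd 1)))).sub (((JetFn.Del.mul JetFn.A11).mul JetFn.A10).mul (JetFn.DD.pd 1)))

theorem jetFn_g1 : JetFn fun f x => (zvar f x).g1 :=
  ((JetFn.Del.mul JetFn.Del).mul ((((((JetFn.const (2 : ℝ)).mul JetFn.Del).mul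
    (JetFn.kk.pd 0)).neg.add (JetFn.A11.mul (JetFn.DD.pd 0))).add
    (JetFn.A11.mul (JetFn.kk.pd 1))).add
    (((JetFn.const (2 : ℝ)).mul JetFn.A10).mul (JetFn.DD.pd 1)))).sub
    (((JetFn.Del.mul JetFn.A11).mul JetFn.A11).mul (JetFn.DD.pd 1))

theorem modN_kk : ModN kk fun _ _ => 0 :=
  ⟨fun _ _ => 1, fun _ _ => 0, .const 1, .const 0, fun _ _ _ => by simp⟩
theorem modN_DD : ModN DD fun _ _ => 0 :=
  ⟨fun _ _ => 0, fun _ _ => 1, .const 0, .const 1, fun _ _ _ => by simp⟩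

/-- Drop a term that vanishes with `N`. -/
theorem ModN.of_eq {a a' c : SF} (h : ModN a a') (e : ∀ f x, ContDiff ℝ ∞ f → c f x = a' f x) :
    ModN a c :=
  let ⟨X, Y, hX, hY, e'⟩ := h
  ⟨X, Y, hX, hY, fun f x hf => by rw [e' f x hf, e f x hf]⟩

theorem modN_psi :
    ModN rowPsi.u₀ (fun f x => (zvar f x).pu0) ∧ ModN rowPsi.u₁ (fun f x => (zvar f x).pu1) ∧
      ModN rowPsi.v₀ (fun f x => (zvar f x).pv0) ∧ ModN rowPsi.v₁ (fun f x => (zvar f x).pv1) := by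
  have a : ModN (fun f x => -(Del f x * kk f x) + A11 f x * DD f x) fun _ _ => 0 :=
    ⟨fun f x => -Del f x, A11, JetFn.Del.neg, .A11, fun f x _ => by ring⟩
  have u : ∀ (H H' : SF) (t s : SF) (s' : SF), JetFn H → ModN H H' → JetFn t → JetFn s →
      ModN s s' → ModN
      (fun f x => (-(Del f x * kk f x) + A11 f x * DD f x) * H f x
        + Del f x * Gc0 f x * t f x - Gc1 f x * s f x)
      fun f x => 0 * H' f x + Del f x * (zvar f x).g0 * t f x - (zvar f x).g1 * s' f x :=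
    fun H H' t s s' hH h ht hs hs' =>
    ((a.mul h (.const 0) hH).add
      (((ModN.refl Del).mul modN_Gc0 .Del .Gc0).mul (ModN.refl t)
        (JetFn.Del.mul jetFn_g0) ht)).sub (modN_Gc1.mul hs' jetFn_g1 hs)
  have v : ∀ (H : SF) (t s : SF) (s' : SF), JetFn H → JetFn t → JetFn s →
      ModN s s' → ModN
      (fun f x => -(A10 f x * DD f x * H f x)
        - (A11 f x * Gc0 f x - A10 f x * Gc1 f x) * t f x + Gc0 f x * s f x)
      fun f x => -(A10 f x * 0 * H f x)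
        - (A11 f x * (zvar f x).g0 - A10 f x * (zvar f x).g1) * t f x + (zvar f x).g0 * s' f x :=
    fun H t s s' hH ht hs hs' =>
    ((((ModN.refl A10).mul modN_DD .A10 .DD).mul (ModN.refl H)
      (JetFn.A10.mul (.const 0)) hH).neg.sub
      ((((ModN.refl A11).mul modN_Gc0 .A11 .Gc0).sub
        ((ModN.refl A10).mul modN_Gc1 .A10 .Gc1)).mul (ModN.refl t)
        ((JetFn.A11.mul jetFn_g0).sub (JetFn.A10.mul jetFn_g1)) ht)).add
      (modN_Gc0.mul hs' jetFn_g0 hs)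
  refine ⟨(u Hc0 Hc0 _ _ _ .Hc0 (.refl _) (JetFn.kk.pd 1) .rB0 modN_rB0).of_eq fun f x _ => ?_,
    (u Hc1 Hc1 _ _ _ .Hc1 (.refl _) (JetFn.DD.pd 1) .rB1 modN_rB1).of_eq fun f x _ => ?_,
    (v Hc0 _ _ _ .Hc0 (JetFn.kk.pd 1) .rB0 modN_rB0).of_eq fun f x _ => ?_,
    (v Hc1 _ _ _ .Hc1 (JetFn.DD.pd 1) .rB1 modN_rB1).of_eq fun f x _ => ?_⟩
  all_goals simp only [ZVar.pu0, ZVar.pu1, ZVar.pv0, ZVar.pv1, zvar]; ring

theorem jetFn_psi : JetFn (fun f x => (zvar f x).pu0) ∧ JetFn (fun f x => (zvar f x).pu1) ∧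
    JetFn (fun f x => (zvar f x).pv0) ∧ JetFn (fun f x => (zvar f x).pv1) :=
  let c := (JetFn.A11.mul jetFn_g0).sub (JetFn.A10.mul jetFn_g1)
  ⟨((JetFn.Del.mul jetFn_g0).mul (JetFn.kk.pd 1)).sub
      (jetFn_g1.mul (JetFn.Del.mul (JetFn.kk.pd 0))),
    ((JetFn.Del.mul jetFn_g0).mul (JetFn.DD.pd 1)).sub
      (jetFn_g1.mul (JetFn.Del.mul (JetFn.DD.pd 0))),
    (c.mul (JetFn.kk.pd 1)).neg.add (jetFn_g0.mul (JetFn.Del.mul (JetFn.kk.pd 0))),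
    (c.mul (JetFn.DD.pd 1)).neg.add (jetFn_g0.mul (JetFn.Del.mul (JetFn.DD.pd 0)))⟩

theorem modN_q : ModN (quad rowN rowPsi 0) (fun f x => (zvar f x).q0) ∧
    ModN (quad rowN rowPsi 1) (fun f x => (zvar f x).q1) ∧
    ModN (quad rowN rowPsi 2) (fun f x => (zvar f x).q2) := by
  obtain ⟨a, b, c, d⟩ := modN_psi
  refine ⟨?_, ?_, ?_⟩
  · obtain ⟨X, Y, hX, hY, e⟩ := b
    exact ⟨X, Y, hX, hY, fun f x hf => by simp [quad, rowN, ZVar.q0, e f x hf]⟩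
  · obtain ⟨X, Y, hX, hY, e⟩ := d.sub a
    exact ⟨X, Y, hX, hY, fun f x hf => by simpa [quad, rowN, ZVar.q1, sub_eq_add_neg] using e f x hf⟩
  · obtain ⟨X, Y, hX, hY, e⟩ := c.neg
    exact ⟨X, Y, hX, hY, fun f x hf => by simpa [quad, rowN, ZVar.q2] using e f x hf⟩

theorem modN_phi (i : Fin 2) :
    ModN (phiU i) (fun f x => 2 * (zvar f x).q0 * pd i (kk f) x + (zvar f x).q1 * pd i (DD f) x) ∧
    ModN (phiV i) (fun f x => (zvar f x).q1 * pd i (kk f) x + 2 * (zvar f x).q2 * pd i (DD f) x) := by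
  obtain ⟨a, b, c⟩ := modN_q
  obtain ⟨pu0, pu1, pv0, pv1⟩ := jetFn_psi
  have q := quad_jetFn rowN_ok rowPsi_ok
  have k := JetFn.kk.pd i
  have D := JetFn.DD.pd i
  have two : JetFn fun _ _ => (2 : ℝ) := .const 2
  refine ⟨(((((ModN.refl _).mul modN_kk ((q 0).pd i) .kk).add
      ((ModN.refl _).mul modN_DD ((q 1).pd i) .DD)).add
      ((((ModN.refl fun _ _ => (2 : ℝ)).mul a two (q 0))).mul (ModN.refl _) (two.mul pu1) k)).add
      (b.mul (ModN.refl _) (pv1.sub pu0) D)).of_eq fun f x _ => ?_,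
    ((((ModN.refl _).mul modN_DD ((q 2).pd i) .DD).add
      (b.mul (ModN.refl _) (pv1.sub pu0) k)).add
      ((((ModN.refl fun _ _ => (2 : ℝ)).mul c two (q 2))).mul (ModN.refl _)
        (two.mul pv0.neg) D)).of_eq fun f x _ => ?_⟩
  all_goals simp

/-- The minor `(0,1,3)` at `N = 0`. -/
theorem modN_minor : ModN (minor 0 1 3) fun f x => (zvar f x).lim013 := by
  obtain ⟨a, b, c, d⟩ := modN_psi
  obtain ⟨pu0, pu1, pv0, pv1⟩ := jetFn_psi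
  obtain ⟨q₀, q₁, q₂⟩ := modN_q
  have Q := quad_jetFn rowN_ok rowPsi_ok
  have two : JetFn fun _ _ => (2 : ℝ) := .const 2
  have k := fun i : Fin 2 => JetFn.kk.pd i
  have D := fun i : Fin 2 => JetFn.DD.pd i
  have ru : ∀ i, JetFn fun f x => Del f x *
      (2 * (zvar f x).q0 * pd i (kk f) x + (zvar f x).q1 * pd i (DD f) x) := fun i =>
    JetFn.Del.mul (((two.mul pu1).mul (k i)).add ((pv1.sub pu0).mul (D i)))
  have rv : ∀ i, JetFn fun f x => Del f x *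
      ((zvar f x).q1 * pd i (kk f) x + 2 * (zvar f x).q2 * pd i (DD f) x) := fun i =>
    JetFn.Del.mul (((pv1.sub pu0).mul (k i)).add ((two.mul pv0.neg).mul (D i)))
  have u₀ := (ModN.refl Del).mul (modN_phi 0).1 .Del (JetFn.phiU 0)
  have u₁ := (ModN.refl Del).mul (modN_phi 1).1 .Del (JetFn.phiU 1)
  have v₀ := (ModN.refl Del).mul (modN_phi 0).2 .Del (JetFn.phiV 0)
  have v₁ := (ModN.refl Del).mul (modN_phi 1).2 .Del (JetFn.phiV 1)
  -- quadrics of `(N, R₀)` and `(Ψ, R₀)`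
  have n₁ := v₁.sub u₀
  have p₀ := (a.mul u₁ pu0 rowR0_ok.u₁).sub (b.mul u₀ pu1 rowR0_ok.u₀)
  have p₁ := ((a.mul v₁ pu0 rowR0_ok.v₁).sub (b.mul v₀ pu1 rowR0_ok.v₀)).add
    ((c.mul u₁ pv0 rowR0_ok.u₁).sub (d.mul u₀ pv1 rowR0_ok.u₀))
  have p₂ := (c.mul v₁ pv0 rowR0_ok.v₁).sub (d.mul v₀ pv1 rowR0_ok.v₀)
  have P := quad_jetFn rowPsi_ok rowR0_ok
  have U₁ := rowR0_ok.u₁
  have V₀ := rowR0_ok.v₀
  have N₁ := rowR0_ok.v₁.sub rowR0_ok.u₀
  have n₁' := (rv 1).sub (ru 0)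
  have m₀ := (n₁.mul p₂ n₁' (P 2)).sub (v₀.neg.mul p₁ (rv 0).neg (P 1))
  have m₁ := (u₁.mul p₂ (ru 1) (P 2)).sub (v₀.neg.mul p₀ (rv 0).neg (P 0))
  have m₂ := (u₁.mul p₁ (ru 1) (P 1)).sub (n₁.mul p₀ n₁' (P 0))
  have j₀ := (N₁.mul (P 2)).sub (V₀.neg.mul (P 1))
  have j₁ := (U₁.mul (P 2)).sub (V₀.neg.mul (P 0))
  have j₂ := (U₁.mul (P 1)).sub (N₁.mul (P 0))
  obtain ⟨X, Y, hX, hY, e⟩ := ((q₀.mul m₀ pu1 j₀).sub (q₁.mul m₁ (pv1.sub pu0) j₁)).add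
    (q₂.mul m₂ pv0.neg j₂)
  refine ⟨X, Y, hX, hY, fun f x hf => ?_⟩
  have h := e f x hf
  simp only [minor, qC, quad, rowN, rowR0, ZVar.lim013, ZVar.q0, ZVar.q1, ZVar.q2, ZVar.ru0,
    ZVar.ru1, ZVar.rv0, ZVar.rv1, zvar, Matrix.cons_val_zero, Matrix.cons_val_one,
    Matrix.cons_val] at h ⊢
  linear_combination h

end Vale.Agent.P205F
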