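import Vale.Agent.P205F.Defs

/-!
# P205, every closed surface: functions of jets

`JetFn c` says that `c f x` is a temperate function of a finite jet of `f` at `x`. The class is
closed under the algebraic operations and under partial derivatives.
-/

namespace Vale.Agent.P205F

open scoped ContDiff RealInnerProductSpace

variable {X Y Z : Type*} [NormedAddCommGroup X] [NormedSpace ℝ X] [NormedAddCommGroup Y]
  [NormedSpace ℝ Y] [NormedAddCommGroup Z] [NormedSpace ℝ Z]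

/-- Forgetting the highest jets. -/
noncomputable def Jet.res {N N' : ℕ} (h : N ≤ N') : Jet N' →L[ℝ] Jet N :=
  ContinuousLinearMap.pi fun k =>
    ContinuousLinearMap.proj (R := ℝ)
      (φ := fun k : Fin (N' + 1) => ContinuousMultilinearMap ℝ (fun _ : Fin (k : ℕ) => E2) R4)
      (Fin.castLE (Nat.succ_le_succ h) k)

theorem Jet.res_jet {N N' : ℕ} (h : N ≤ N') (f : E2 → R4) (x : E2) :
    Jet.res h (jet N' f x) = jet N f x := rfl

/-- The jet of a partial derivative of the jet. -/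
noncomputable def Jet.shift (N : ℕ) (i : Fin 2) : Jet (N + 1) →L[ℝ] Jet N :=
  ContinuousLinearMap.pi fun k =>
    ((ContinuousLinearMap.apply ℝ
        (ContinuousMultilinearMap ℝ (fun _ : Fin (k : ℕ) => E2) R4) (ev i)).comp
      (continuousMultilinearCurryLeftEquiv ℝ (fun _ : Fin ((k : ℕ) + 1) => E2) R4).toContinuousLinearEquiv.toContinuousLinearMap).comp
      (ContinuousLinearMap.proj (R := ℝ)
        (φ := fun k : Fin (N + 1 + 1) => ContinuousMultilinearMap ℝ (fun _ : Fin (k : ℕ) => E2) R4)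
        k.succ)

/-- Jets of smooth maps are smooth. -/
theorem contDiff_jet {f : E2 → R4} (hf : ContDiff ℝ ∞ f) (N : ℕ) : ContDiff ℝ ∞ (jet N f) :=
  contDiff_pi.2 fun k => hf.iteratedFDeriv_right (by exact_mod_cast le_top)

theorem hasFDerivAt_jet {f : E2 → R4} (hf : ContDiff ℝ ∞ f) (N : ℕ) (x : E2) :
    HasFDerivAt (jet N f) (fderiv ℝ (jet N f) x) x :=
  ((contDiff_jet hf N).differentiable (by simp) x).hasFDerivAt

theorem fderiv_jet {f : E2 → R4} (hf : ContDiff ℝ ∞ f) (N : ℕ) (x : E2) (i : Fin 2) :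
    fderiv ℝ (jet N f) x (ev i) = Jet.shift N i (jet (N + 1) f x) := by
  funext k
  have hd : ∀ j : Fin (N + 1), DifferentiableAt ℝ (fun z => jet N f z j) x := fun j =>
    ((contDiff_pi.1 (contDiff_jet hf N) j).differentiable (by simp)) x
  rw [fderiv_pi hd]
  ext m
  simp [Jet.shift, jet, iteratedFDeriv_succ_apply_left]

/-- A function of finite jets. -/
def JetFn (c : (E2 → R4) → E2 → X) : Prop :=
  ∃ (N : ℕ) (g : Jet N → X), Function.HasTemperateGrowth g ∧
    ∀ f x, ContDiff ℝ ∞ f → c f x = g (jet N f x)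

theorem JetFn.congr {c d : (E2 → R4) → E2 → X} (h : JetFn c)
    (e : ∀ f x, ContDiff ℝ ∞ f → d f x = c f x) : JetFn d :=
  let ⟨N, g, hg, hc⟩ := h
  ⟨N, g, hg, fun f x hf => (e f x hf).trans (hc f x hf)⟩

theorem JetFn.const (a : X) : JetFn fun _ _ => a :=
  ⟨0, fun _ => a, .const a, fun _ _ _ => rfl⟩

/-- Raise the jet order of a representation. -/
theorem JetFn.rep {c : (E2 → R4) → E2 → X} (h : JetFn c) :
    ∃ N : ℕ, ∀ N', N ≤ N' → ∃ g : Jet N' → X, Function.HasTemperateGrowth g ∧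
      ∀ f x, ContDiff ℝ ∞ f → c f x = g (jet N' f x) := by
  obtain ⟨N, g, hg, hc⟩ := h
  refine ⟨N, fun N' h => ⟨g ∘ Jet.res h, hg.comp (Jet.res h).hasTemperateGrowth, fun f x hf => ?_⟩⟩
  simp [hc f x hf, Jet.res_jet]

theorem JetFn.clm {c : (E2 → R4) → E2 → X} (h : JetFn c) (A : X →L[ℝ] Y) :
    JetFn fun f x => A (c f x) :=
  let ⟨N, g, hg, hc⟩ := h
  ⟨N, A ∘ g, A.hasTemperateGrowth.comp hg, fun f x hf => by simp [hc f x hf]⟩

theorem JetFn.bilin {c : (E2 → R4) → E2 → X} {d : (E2 → R4) → E2 → Y} (hc : JetFn c)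
    (hd : JetFn d) (B : X →L[ℝ] Y →L[ℝ] Z) : JetFn fun f x => B (c f x) (d f x) := by
  obtain ⟨N₁, h₁⟩ := hc.rep
  obtain ⟨N₂, h₂⟩ := hd.rep
  obtain ⟨g₁, hg₁, e₁⟩ := h₁ (max N₁ N₂) (le_max_left _ _)
  obtain ⟨g₂, hg₂, e₂⟩ := h₂ (max N₁ N₂) (le_max_right _ _)
  exact ⟨max N₁ N₂, fun z => B (g₁ z) (g₂ z), B.bilinear_hasTemperateGrowth hg₁ hg₂,
    fun f x hf => by simp [e₁ f x hf, e₂ f x hf]⟩

theorem JetFn.add {c d : (E2 → R4) → E2 → X} (hc : JetFn c) (hd : JetFn d) :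
    JetFn fun f x => c f x + d f x := by
  obtain ⟨N₁, h₁⟩ := hc.rep
  obtain ⟨N₂, h₂⟩ := hd.rep
  obtain ⟨g₁, hg₁, e₁⟩ := h₁ (max N₁ N₂) (le_max_left _ _)
  obtain ⟨g₂, hg₂, e₂⟩ := h₂ (max N₁ N₂) (le_max_right _ _)
  exact ⟨max N₁ N₂, g₁ + g₂, hg₁.add hg₂, fun f x hf => by simp [e₁ f x hf, e₂ f x hf]⟩

theorem JetFn.neg {c : (E2 → R4) → E2 → X} (hc : JetFn c) : JetFn fun f x => -c f x :=
  hc.clm (-ContinuousLinearMap.id ℝ X)

theorem JetFn.sub {c d : (E2 → R4) → E2 → X} (hc : JetFn c) (hd : JetFn d) :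
    JetFn fun f x => c f x - d f x :=
  (hc.add hd.neg).congr fun _ _ _ => sub_eq_add_neg _ _

theorem JetFn.mul {c d : (E2 → R4) → E2 → ℝ} (hc : JetFn c) (hd : JetFn d) :
    JetFn fun f x => c f x * d f x :=
  hc.bilin hd (ContinuousLinearMap.mul ℝ ℝ)

theorem JetFn.smul {c : (E2 → R4) → E2 → ℝ} {d : (E2 → R4) → E2 → X} (hc : JetFn c)
    (hd : JetFn d) : JetFn fun f x => c f x • d f x :=
  hc.bilin hd (ContinuousLinearMap.lsmul ℝ ℝ)

theorem JetFn.inner {c d : (E2 → R4) → E2 → R4} (hc : JetFn c) (hd : JetFn d) :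
    JetFn fun f x => ⟪c f x, d f x⟫ :=
  (hc.bilin hd (innerSL ℝ)).congr fun _ _ _ => rfl

/-- The map itself. -/
theorem JetFn.self : JetFn fun f x => f x := by
  refine ⟨0, fun z => (continuousMultilinearCurryFin0 ℝ E2 R4) (z 0),
    ((continuousMultilinearCurryFin0 ℝ E2 R4).toContinuousLinearEquiv.toContinuousLinearMap.comp
      (ContinuousLinearMap.proj (R := ℝ)
        (φ := fun k : Fin (0 + 1) => ContinuousMultilinearMap ℝ (fun _ : Fin (k : ℕ) => E2) R4)
        0)).hasTemperateGrowth, fun f x _ => ?_⟩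
  simp [jet]

theorem hasTemperateGrowth_fderiv {E F : Type*} [NormedAddCommGroup E] [NormedSpace ℝ E]
    [NormedAddCommGroup F] [NormedSpace ℝ F] {g : E → F} (hg : g.HasTemperateGrowth) :
    Function.HasTemperateGrowth (fderiv ℝ g) := by
  refine ⟨hg.1.fderiv_right (by exact_mod_cast le_top), fun n => ?_⟩
  obtain ⟨k, C, h⟩ := hg.2 (n + 1)
  exact ⟨k, C, fun x => by simpa only [norm_iteratedFDeriv_fderiv] using h x⟩

theorem tg_apply {E A B : Type*} [NormedAddCommGroup E] [NormedSpace ℝ E] [NormedAddCommGroup A]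
    [NormedSpace ℝ A] [NormedAddCommGroup B] [NormedSpace ℝ B] {g : E → (A →L[ℝ] B)} {h : E → A}
    (hg : g.HasTemperateGrowth) (hh : h.HasTemperateGrowth) :
    Function.HasTemperateGrowth fun z => g z (h z) :=
  (ContinuousLinearMap.id ℝ (A →L[ℝ] B)).bilinear_hasTemperateGrowth hg hh

theorem tg_comp {E A B C : Type*} [NormedAddCommGroup E] [NormedSpace ℝ E] [NormedAddCommGroup A]
    [NormedSpace ℝ A] [NormedAddCommGroup B] [NormedSpace ℝ B] [NormedAddCommGroup C]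
    [NormedSpace ℝ C] {g : E → (B →L[ℝ] C)} {h : E → (A →L[ℝ] B)}
    (hg : g.HasTemperateGrowth) (hh : h.HasTemperateGrowth) :
    Function.HasTemperateGrowth fun z => (g z).comp (h z) :=
  (ContinuousLinearMap.compL ℝ A B C).bilinear_hasTemperateGrowth hg hh

/-- Total derivatives of jet functions. -/
theorem JetFn.pd {c : (E2 → R4) → E2 → X} (hc : JetFn c) (i : Fin 2) :
    JetFn fun f x => pd i (c f) x := by
  obtain ⟨N, g, hg, e⟩ := hc
  refine ⟨N + 1, fun z => fderiv ℝ g (Jet.res (Nat.le_succ N) z) (Jet.shift N i z),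
    (ContinuousLinearMap.id ℝ (Jet N →L[ℝ] X)).bilinear_hasTemperateGrowth
      ((hasTemperateGrowth_fderiv hg).comp (Jet.res (Nat.le_succ N)).hasTemperateGrowth)
      (Jet.shift N i).hasTemperateGrowth, fun f x hf => ?_⟩
  have h : c f = g ∘ jet N f := funext fun z => e f z hf
  show fderiv ℝ (c f) x (ev i) = _
  rw [h, fderiv_comp x ((hg.1.differentiable (by simp)) _) (hasFDerivAt_jet hf N x).differentiableAt,
    ContinuousLinearMap.comp_apply, fderiv_jet hf]
  rfl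

/-- Partial derivatives of the map. -/
theorem JetFn.pd_self (i : Fin 2) : JetFn fun f x => P205F.pd i f x :=
  JetFn.self.pd i

/-- A jet function is smooth along smooth maps. -/
theorem JetFn.smooth {c : (E2 → R4) → E2 → X} (hc : JetFn c) {f : E2 → R4}
    (hf : ContDiff ℝ ∞ f) : ContDiff ℝ ∞ (c f) := by
  obtain ⟨N, g, hg, e⟩ := hc
  have h : c f = g ∘ jet N f := funext fun z => e f z hf
  rw [h]
  exact hg.1.comp (contDiff_jet hf N)

end Vale.Agent.P205F
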