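import Vale.Agent.P205F.GoodAlg.Im

/-!
# P205, every closed surface: linear differential operators with jet coefficients
-/

set_option maxSynthPendingDepth 3

namespace Vale.Agent.P205F

open scoped ContDiff RealInnerProductSpace

variable {V X Y Z : Type*} [NormedAddCommGroup V] [NormedSpace ℝ V] [NormedAddCommGroup X]
  [NormedSpace ℝ X] [NormedAddCommGroup Y] [NormedSpace ℝ Y] [NormedAddCommGroup Z]
  [NormedSpace ℝ Z]

/-- Coefficients for inputs in `V`. -/
abbrev VCoef (N : ℕ) (V X : Type*) [NormedAddCommGroup V] [NormedSpace ℝ V] [NormedAddCommGroup X]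
    [NormedSpace ℝ X] : Type _ :=
  (k : ℕ) → Jet N → (ContinuousMultilinearMap ℝ (fun _ : Fin k => E2) V →L[ℝ] X)

/-- `Φ f q` is a differential operator with temperate jet coefficients applied to `q`. -/
def LinOp (Φ : (E2 → R4) → (E2 → V) → E2 → X) : Prop :=
  ∃ (N L : ℕ) (co : VCoef N V X), (∀ k, Function.HasTemperateGrowth (co k)) ∧
    ∀ f q, ContDiff ℝ ∞ f → ContDiff ℝ ∞ q → ∀ x,
      Φ f q x = ∑ k ∈ Finset.range L, co k (jet N f x) (iteratedFDeriv ℝ k q x)

theorem LinOp.congr {Φ Ψ : (E2 → R4) → (E2 → V) → E2 → X} (h : LinOp Φ)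
    (e : ∀ f q, ContDiff ℝ ∞ f → ContDiff ℝ ∞ q → ∀ x, Ψ f q x = Φ f q x) : LinOp Ψ :=
  let ⟨N, L, co, hco, hΦ⟩ := h
  ⟨N, L, co, hco, fun f q hf hq x => (e f q hf hq x).trans (hΦ f q hf hq x)⟩

theorem LinOp.zero : LinOp (V := V) (X := X) fun _ _ _ => 0 :=
  ⟨0, 0, fun _ _ => 0, fun _ => .zero, fun _ _ _ _ _ => by simp⟩

/-- Raise both orders of a representation. -/
theorem LinOp.rep {Φ : (E2 → R4) → (E2 → V) → E2 → X} (h : LinOp Φ) :
    ∃ N L : ℕ, ∀ N' L', N ≤ N' → L ≤ L' → ∃ co : VCoef N' V X,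
      (∀ k, Function.HasTemperateGrowth (co k)) ∧
      ∀ f q, ContDiff ℝ ∞ f → ContDiff ℝ ∞ q → ∀ x,
        Φ f q x = ∑ k ∈ Finset.range L', co k (jet N' f x) (iteratedFDeriv ℝ k q x) := by
  obtain ⟨N, L, co, hco, e⟩ := h
  refine ⟨N, L, fun N' L' hN hL =>
    ⟨fun k z => if k < L then co k (Jet.res hN z) else 0, fun k => ?_, fun f q hf hq x => ?_⟩⟩
  · by_cases hk : k < L
    · simpa [hk, Function.comp_def] using (hco k).comp (Jet.res hN).hasTemperateGrowth
    · simp [hk]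
  · rw [e f q hf hq x]
    simp only [Jet.res_jet]
    refine (Finset.sum_congr rfl fun k hk => ?_).trans
      (Finset.sum_subset (Finset.range_mono hL) fun k _ hk => ?_)
    · simp [Finset.mem_range.1 hk]
    · simp [Finset.mem_range.not.1 hk]

theorem LinOp.add {Φ Ψ : (E2 → R4) → (E2 → V) → E2 → X} (hΦ : LinOp Φ) (hΨ : LinOp Ψ) :
    LinOp fun f q x => Φ f q x + Ψ f q x := by
  obtain ⟨N₁, L₁, h₁⟩ := hΦ.rep
  obtain ⟨N₂, L₂, h₂⟩ := hΨ.rep
  obtain ⟨c₁, t₁, e₁⟩ := h₁ (max N₁ N₂) (max L₁ L₂) (le_max_left _ _) (le_max_left _ _)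
  obtain ⟨c₂, t₂, e₂⟩ := h₂ (max N₁ N₂) (max L₁ L₂) (le_max_right _ _) (le_max_right _ _)
  refine ⟨_, max L₁ L₂, fun k => c₁ k + c₂ k, fun k => (t₁ k).add (t₂ k), fun f q hf hq x => ?_⟩
  simp [e₁ f q hf hq x, e₂ f q hf hq x, Finset.sum_add_distrib]

/-- Apply a jet dependent linear map. -/
theorem LinOp.clmFn {Φ : (E2 → R4) → (E2 → V) → E2 → X} (hΦ : LinOp Φ)
    {A : (E2 → R4) → E2 → (X →L[ℝ] Y)} (hA : JetFn A) :
    LinOp fun f q x => A f x (Φ f q x) := by
  obtain ⟨N₁, L₁, h₁⟩ := hΦ.rep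
  obtain ⟨N₂, h₂⟩ := hA.rep
  obtain ⟨c₁, t₁, e₁⟩ := h₁ (max N₁ N₂) L₁ (le_max_left _ _) le_rfl
  obtain ⟨g, hg, e₂⟩ := h₂ (max N₁ N₂) (le_max_right _ _)
  refine ⟨_, L₁, fun k z => (g z).comp (c₁ k z), fun k => tg_comp hg (t₁ k),
    fun f q hf hq x => ?_⟩
  simp [e₁ f q hf hq x, e₂ f x hf, map_sum]

theorem LinOp.clm {Φ : (E2 → R4) → (E2 → V) → E2 → X} (hΦ : LinOp Φ) (A : X →L[ℝ] Y) :
    LinOp fun f q x => A (Φ f q x) :=
  hΦ.clmFn (JetFn.const A)

theorem LinOp.smul {Φ : (E2 → R4) → (E2 → V) → E2 → X} (hΦ : LinOp Φ)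
    {c : (E2 → R4) → E2 → ℝ} (hc : JetFn c) : LinOp fun f q x => c f x • Φ f q x :=
  (hΦ.clmFn (hc.clm (ContinuousLinearMap.lsmul ℝ ℝ (E := X)))).congr fun _ _ _ _ _ => rfl

theorem LinOp.neg {Φ : (E2 → R4) → (E2 → V) → E2 → X} (hΦ : LinOp Φ) :
    LinOp fun f q x => -Φ f q x :=
  (hΦ.clm (-ContinuousLinearMap.id ℝ X)).congr fun _ _ _ _ _ => rfl

theorem LinOp.sub {Φ Ψ : (E2 → R4) → (E2 → V) → E2 → X} (hΦ : LinOp Φ) (hΨ : LinOp Ψ) :
    LinOp fun f q x => Φ f q x - Ψ f q x :=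
  (hΦ.add hΨ.neg).congr fun _ _ _ _ _ => sub_eq_add_neg _ _

theorem LinOp.sum {ι : Type*} (s : Finset ι) {Φ : ι → (E2 → R4) → (E2 → V) → E2 → X}
    (h : ∀ i ∈ s, LinOp (Φ i)) : LinOp fun f q x => ∑ i ∈ s, Φ i f q x := by
  classical
  induction s using Finset.induction_on with
  | empty => simpa using LinOp.zero (V := V) (X := X)
  | insert a s ha ih =>
    simp only [Finset.sum_insert ha]
    exact (h a (Finset.mem_insert_self a s)).add
      (ih fun i hi => h i (Finset.mem_insert_of_mem hi))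

/-- The input. -/
theorem LinOp.id : LinOp (V := V) fun _ q x => q x := by
  refine ⟨0, 1, fun k _ => if h : k = 0 then by
      subst h
      exact (continuousMultilinearCurryFin0 ℝ E2 V).toContinuousLinearEquiv.toContinuousLinearMap
    else 0, fun k => .const _, fun f q _ _ x => ?_⟩
  simp

/-- Values of operators are smooth. -/
theorem LinOp.smooth {Φ : (E2 → R4) → (E2 → V) → E2 → X} (hΦ : LinOp Φ) {f : E2 → R4}
    {q : E2 → V} (hf : ContDiff ℝ ∞ f) (hq : ContDiff ℝ ∞ q) : ContDiff ℝ ∞ (Φ f q) := by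
  obtain ⟨N, L, co, hco, e⟩ := hΦ
  rw [show Φ f q = fun z => ∑ k ∈ Finset.range L, co k (jet N f z) (iteratedFDeriv ℝ k q z) from
    funext fun z => e f q hf hq z]
  exact ContDiff.sum fun k _ => (((hco k).1.comp (contDiff_jet hf N)).clm_apply
    (hq.iteratedFDeriv_right (by exact_mod_cast le_top)))

/-- Partial derivatives of operators. -/
theorem LinOp.pd {Φ : (E2 → R4) → (E2 → V) → E2 → X} (hΦ : LinOp Φ) (i : Fin 2) :
    LinOp fun f q x => P205F.pd i (Φ f q) x := by
  obtain ⟨N, L, co, hco, e⟩ := hΦ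
  set A : (k : ℕ) → (ContinuousMultilinearMap ℝ (fun _ : Fin (k + 1) => E2) V →L[ℝ]
      ContinuousMultilinearMap ℝ (fun _ : Fin k => E2) V) := fun k =>
    (ContinuousLinearMap.apply ℝ (ContinuousMultilinearMap ℝ (fun _ : Fin k => E2) V) (ev i)).comp
      (continuousMultilinearCurryLeftEquiv ℝ (fun _ : Fin (k + 1) => E2)
        V).toContinuousLinearEquiv.toContinuousLinearMap with hA
  set c₀ : VCoef (N + 1) V X := fun k z =>
    if k < L then fderiv ℝ (co k) (Jet.res (Nat.le_succ N) z) (Jet.shift N i z) else 0 with hc₀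
  set c₁ : VCoef (N + 1) V X := fun k z =>
    match k with
    | 0 => 0
    | j + 1 => if j < L then (co j (Jet.res (Nat.le_succ N) z)).comp (A j) else 0 with hc₁
  refine ⟨N + 1, L + 1, fun k => c₀ k + c₁ k, fun k => ?_, fun f q hf hq x => ?_⟩
  · refine Function.HasTemperateGrowth.add ?_ ?_
    · by_cases hk : k < L
      · simp only [hc₀, hk, if_true]
        exact tg_apply
          ((hasTemperateGrowth_fderiv (hco k)).comp (Jet.res (Nat.le_succ N)).hasTemperateGrowth)
          (Jet.shift N i).hasTemperateGrowth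
      · simp [hc₀, hk]
    · cases k with
      | zero => simp [hc₁]
      | succ j =>
        by_cases hj : j < L
        · simp only [hc₁, hj, if_true]
          exact tg_comp ((hco j).comp (Jet.res (Nat.le_succ N)).hasTemperateGrowth) (.const (A j))
        · simp [hc₁, hj]
  · have hc : ∀ k, DifferentiableAt ℝ (fun z => co k (jet N f z)) x := fun k =>
      (((hco k).1.comp (contDiff_jet hf N)).differentiable (by simp)) x
    have hd : ∀ k : ℕ, DifferentiableAt ℝ (fun z => iteratedFDeriv ℝ k q z) x := fun k =>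
      ((hq.iteratedFDeriv_right (m := ∞) (by exact_mod_cast le_top)).differentiable (by simp)) x
    show fderiv ℝ (Φ f q) x (ev i) = _
    rw [show Φ f q = fun z => ∑ k ∈ Finset.range L, co k (jet N f z) (iteratedFDeriv ℝ k q z) from
        funext fun z => e f q hf hq z,
      fderiv_fun_sum fun k _ => (hc k).clm_apply (hd k), _root_.sum_apply]
    simp only [Pi.add_apply, _root_.add_apply, Finset.sum_add_distrib]
    rw [Finset.sum_range_succ (fun k => c₀ k (jet (N + 1) f x) _),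
      Finset.sum_range_succ' (fun k => c₁ k (jet (N + 1) f x) _)]
    simp only [hc₀, hc₁, lt_irrefl, if_false, _root_.zero_apply, add_zero]
    rw [← Finset.sum_add_distrib]
    refine Finset.sum_congr rfl fun k hk => ?_
    have h' : fderiv ℝ (fun z => co k (jet N f z)) x (ev i) =
        fderiv ℝ (co k) (jet N f x) (Jet.shift N i (jet (N + 1) f x)) := by
      rw [show (fun z => co k (jet N f z)) = co k ∘ jet N f from rfl,
        fderiv_comp x ((hco k).1.differentiable (by simp) _)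
          (hasFDerivAt_jet hf N x).differentiableAt, ContinuousLinearMap.comp_apply, fderiv_jet hf]
    have hres : Jet.res (Nat.le_succ N) (jet (N + 1) f x) = jet N f x := rfl
    have hA' : A k (iteratedFDeriv ℝ (k + 1) q x) =
        fderiv ℝ (fun z => iteratedFDeriv ℝ k q z) x (ev i) := by
      ext m
      simp [hA, iteratedFDeriv_succ_apply_left]
    rw [fderiv_clm_apply (hc k) (hd k), if_pos (Finset.mem_range.1 hk),
      if_pos (Finset.mem_range.1 hk), hres, ← h', ContinuousLinearMap.comp_apply, hA']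
    simp only [_root_.add_apply, ContinuousLinearMap.comp_apply, ContinuousLinearMap.flip_apply]
    exact add_comm _ _

end Vale.Agent.P205F
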