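import Vale.Agent.P205F.GoodAlg.Base

/-!
# P205, every closed surface: the reduced first order system

With `b W₂ ≡ -(d W₀ + 2c W₁)` the tangential equations become `δ W_x ≡ A W_y + B W`, `δ = det b²`.
`InMod a b`: the row `(a, b)` maps `(W₀, W₁)` into the image; `InIdl φ`: `φ W₀`, `φ W₁` are there.
-/

namespace Vale.Agent.P205F

open scoped ContDiff RealInnerProductSpace

/-- Real expressions in `(f, W)`. -/
theorem InIm.mulFn {Φ : (E2 → R4) → (E2 → S3) → E2 → ℝ} (h : InIm Φ) {c : SF} (hc : JetFn c) :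
    InIm fun f W x => c f x * Φ f W x :=
  (h.smul hc).congr fun _ _ _ _ _ => rfl

/-- Derivative of a component. -/
noncomputable def dW (i : Fin 2) (j : Fin 3) (W : E2 → S3) (x : E2) : ℝ := pd i (fun z => W z j) x

/-- `δ`. -/
noncomputable def Del : SF := fun f x => gdet f x * bb f x ^ 2
/-- Coefficient of the system. -/
noncomputable def A10 : SF := fun f x => gdet f x * bb f x * dd f x
/-- Coefficient of the system. -/
noncomputable def A11 : SF := fun f x => 2 * gdet f x * bb f x * cc f x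
/-- Coefficient of the system. -/
noncomputable def B00 : SF := fun f x =>
  -(bb f x ^ 2 * gam f x 0 0) + bb f x * gam f x 0 2 * dd f x
/-- Coefficient of the system. -/
noncomputable def B01 : SF := fun f x =>
  -(bb f x ^ 2 * gam f x 0 1) + 2 * bb f x * gam f x 0 2 * cc f x
/-- Coefficient of the system. -/
noncomputable def B10 : SF := fun f x =>
  gdet f x * (bb f x * pd 1 (dd f) x - pd 1 (bb f) x * dd f x)
    - bb f x ^ 2 * gam f x 1 0 + bb f x * gam f x 1 2 * dd f x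
/-- Coefficient of the system. -/
noncomputable def B11 : SF := fun f x =>
  2 * gdet f x * (bb f x * pd 1 (cc f) x - pd 1 (bb f) x * cc f x)
    - bb f x ^ 2 * gam f x 1 1 + 2 * bb f x * gam f x 1 2 * cc f x

theorem JetFn.Del : JetFn P205F.Del :=
  (JetFn.gdet.mul (JetFn.bb.mul JetFn.bb)).congr fun f x _ => by simp [P205F.Del, pow_two]
theorem JetFn.A10 : JetFn P205F.A10 := (JetFn.gdet.mul JetFn.bb).mul JetFn.dd
theorem JetFn.A11 : JetFn P205F.A11 :=
  (((JetFn.const (2 : ℝ)).mul JetFn.gdet).mul JetFn.bb).mul JetFn.cc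
theorem JetFn.bb2 : JetFn fun f x => P205F.bb f x ^ 2 :=
  (JetFn.bb.mul JetFn.bb).congr fun f x _ => pow_two _
theorem JetFn.B00 : JetFn P205F.B00 :=
  (JetFn.bb2.mul (JetFn.gam 0 0)).neg.add ((JetFn.bb.mul (JetFn.gam 0 2)).mul JetFn.dd)
theorem JetFn.B01 : JetFn P205F.B01 :=
  (JetFn.bb2.mul (JetFn.gam 0 1)).neg.add
    ((((JetFn.const (2 : ℝ)).mul JetFn.bb).mul (JetFn.gam 0 2)).mul JetFn.cc)
theorem JetFn.B10 : JetFn P205F.B10 :=
  ((JetFn.gdet.mul ((JetFn.bb.mul (JetFn.dd.pd 1)).sub ((JetFn.bb.pd 1).mul JetFn.dd))).sub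
    (JetFn.bb2.mul (JetFn.gam 1 0))).add ((JetFn.bb.mul (JetFn.gam 1 2)).mul JetFn.dd)
theorem JetFn.B11 : JetFn P205F.B11 :=
  ((((JetFn.const (2 : ℝ)).mul JetFn.gdet).mul
    ((JetFn.bb.mul (JetFn.cc.pd 1)).sub ((JetFn.bb.pd 1).mul JetFn.cc))).sub
    (JetFn.bb2.mul (JetFn.gam 1 1))).add
    ((((JetFn.const (2 : ℝ)).mul JetFn.bb).mul (JetFn.gam 1 2)).mul JetFn.cc)

/-- First equation of the system. -/
theorem sys0 : InIm fun f W x =>
    Del f x * dW 0 0 W x + Del f x * dW 1 1 W x - B00 f x * W x 0 - B01 f x * W x 1 := by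
  refine (((eq_tan 0).mulFn JetFn.bb2).sub
    (eq_nu2.mulFn (JetFn.bb.mul (JetFn.gam 0 2)))).congr fun f W _ _ x => ?_
  simp only [Fin.isValue, ↓reduceIte, Del, B00, B01, dW]
  ring

/-- Second equation of the system. -/
theorem sys1 : InIm fun f W x =>
    Del f x * dW 0 1 W x - A10 f x * dW 1 0 W x - A11 f x * dW 1 1 W x
      - B10 f x * W x 0 - B11 f x * W x 1 := by
  refine ((((eq_tan 1).mulFn JetFn.bb2).sub
    (eq_nu2.mulFn (JetFn.bb.mul (JetFn.gam 1 2)))).sub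
    (((eq_nu2.pd 1).mulFn (JetFn.gdet.mul JetFn.bb)).sub
      (eq_nu2.mulFn (JetFn.gdet.mul (JetFn.bb.pd 1))))).congr fun f W hf hW x => ?_
  have w : ∀ j, ContDiff ℝ ∞ fun z => W z j := contDiff_pi.1 hW
  have hd := JetFn.dd.smooth hf
  have hc := (JetFn.cc.smooth hf)
  have hb := JetFn.bb.smooth hf
  rw [pd_add ((hd.mul (w 0)).add ((contDiff_const.mul hc).mul (w 1))) (hb.mul (w 2)),
    pd_add (hd.mul (w 0)) ((contDiff_const.mul hc).mul (w 1)), pd_mul hd (w 0),
    pd_mul (contDiff_const.mul hc) (w 1), pd_mul hb (w 2), pd_const_mul _ hc]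
  simp only [Fin.isValue, one_ne_zero, ↓reduceIte, Del, A10, A11, B10, B11, dW]
  ring

/-- A row that maps into the image. -/
def InMod (a b : SF) : Prop := InIm fun f W x => a f x * W x 0 + b f x * W x 1

theorem InMod.congr {a b a' b' : SF} (h : InMod a b)
    (ha : ∀ f x, ContDiff ℝ ∞ f → a' f x = a f x) (hb : ∀ f x, ContDiff ℝ ∞ f → b' f x = b f x) :
    InMod a' b' :=
  InIm.congr h fun f W hf _ x => by rw [ha f x hf, hb f x hf]

theorem InMod.add {a b a' b' : SF} (h : InMod a b) (h' : InMod a' b') :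
    InMod (fun f x => a f x + a' f x) fun f x => b f x + b' f x :=
  (InIm.add h h').congr fun f W _ _ x => by ring

theorem InMod.mulFn {a b c : SF} (h : InMod a b) (hc : JetFn c) :
    InMod (fun f x => c f x * a f x) fun f x => c f x * b f x :=
  (InIm.mulFn h hc).congr fun f W _ _ x => by ring

theorem inMod_N : InMod kk DD := eq_nu1

/-- A scalar in the ideal. -/
def InIdl (φ : SF) : Prop := InMod φ 0 ∧ InMod 0 φ

theorem InIdl.congr {φ ψ : SF} (h : InIdl φ) (e : ∀ f x, ContDiff ℝ ∞ f → ψ f x = φ f x) :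
    InIdl ψ :=
  ⟨h.1.congr e fun _ _ _ => rfl, h.2.congr (fun _ _ _ => rfl) e⟩

theorem InIdl.add {φ ψ : SF} (h : InIdl φ) (h' : InIdl ψ) : InIdl fun f x => φ f x + ψ f x :=
  ⟨(h.1.add h'.1).congr (fun _ _ _ => rfl) fun _ _ _ => by simp,
    (h.2.add h'.2).congr (fun _ _ _ => by simp) fun _ _ _ => rfl⟩

theorem InIdl.mulFn {φ c : SF} (h : InIdl φ) (hc : JetFn c) : InIdl fun f x => c f x * φ f x :=
  ⟨(h.1.mulFn hc).congr (fun _ _ _ => rfl) fun _ _ _ => by simp,
    (h.2.mulFn hc).congr (fun _ _ _ => by simp) fun _ _ _ => rfl⟩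

/-- Cramer. -/
theorem InMod.det {a b c e : SF} (h : InMod a b) (h' : InMod c e) (ha : JetFn a) (hb : JetFn b)
    (hc : JetFn c) (he : JetFn e) : InIdl fun f x => a f x * e f x - b f x * c f x :=
  ⟨((InIm.mulFn h he).sub (InIm.mulFn h' hb)).congr fun f W _ _ x => by simp; ring,
    ((InIm.mulFn h' ha).sub (InIm.mulFn h hc)).congr fun f W _ _ x => by simp; ring⟩

/-- The key step `(*)`: both rows of `δ φ_x 1 - φ_y A` are in the module. -/
theorem InIdl.deriv {φ : SF} (h : InIdl φ) (hφ : JetFn φ) :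
    InMod (fun f x => Del f x * pd 0 (φ f) x) (fun f x => Del f x * pd 1 (φ f) x) ∧
      InMod (fun f x => -(pd 1 (φ f) x * A10 f x))
        (fun f x => Del f x * pd 0 (φ f) x - pd 1 (φ f) x * A11 f x) := by
  have e₀ : InIm fun f W x => φ f x * W x 0 :=
    InIm.congr h.1 fun f W _ _ x => by simp
  have e₁ : InIm fun f W x => φ f x * W x 1 :=
    InIm.congr h.2 fun f W _ _ x => by simp
  constructor
  · refine (((((e₀.pd 0).mulFn JetFn.Del).add ((e₁.pd 1).mulFn JetFn.Del)).sub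
      (sys0.mulFn hφ)).sub ((e₀.mulFn JetFn.B00).add (e₁.mulFn JetFn.B01))).congr
      fun f W hf hW x => ?_
    have w : ∀ j, ContDiff ℝ ∞ fun z => W z j := contDiff_pi.1 hW
    rw [pd_mul (hφ.smooth hf) (w 0), pd_mul (hφ.smooth hf) (w 1)]
    simp only [dW]
    ring
  · refine ((((((e₁.pd 0).mulFn JetFn.Del).sub ((e₀.pd 1).mulFn JetFn.A10)).sub
      ((e₁.pd 1).mulFn JetFn.A11)).sub
      (sys1.mulFn hφ)).sub ((e₀.mulFn JetFn.B10).add (e₁.mulFn JetFn.B11))).congr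
      fun f W hf hW x => ?_
    have w : ∀ j, ContDiff ℝ ∞ fun z => W z j := contDiff_pi.1 hW
    rw [pd_mul (hφ.smooth hf) (w 0), pd_mul (hφ.smooth hf) (w 1), pd_mul (hφ.smooth hf) (w 1)]
    simp only [dW]
    ring

/-- An element of the ideal gives an identity. -/
theorem InIdl.exists_ident {φ : SF} (h : InIdl φ) (hφ : JetFn φ) :
    ∃ I : Ident, ∀ f x, ContDiff ℝ ∞ f →
      I.den (jet I.N f x) = (bb f x * φ f x) ^ 2 := by
  refine exists_ident_of_inIm (JetFn.bb.mul hφ) ?_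
  have e₀ : InIm fun f W x => φ f x * W x 0 := InIm.congr h.1 fun f W _ _ x => by simp
  have e₁ : InIm fun f W x => φ f x * W x 1 := InIm.congr h.2 fun f W _ _ x => by simp
  have c₀ := e₀.mulFn JetFn.bb
  have c₁ := e₁.mulFn JetFn.bb
  have c₂ := (eq_nu2.mulFn hφ).sub
    ((e₀.mulFn JetFn.dd).add (e₁.mulFn ((JetFn.const (2 : ℝ)).mul JetFn.cc)))
  have s : ∀ (j : Fin 3) {Φ : (E2 → R4) → (E2 → S3) → E2 → ℝ}, InIm Φ →
      InIm fun f W x => Φ f W x • (Pi.single j (1 : ℝ) : S3) := fun j _ hΦ =>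
    (hΦ.clm ((ContinuousLinearMap.id ℝ ℝ).smulRight (Pi.single j (1 : ℝ) : S3))).congr
      fun _ _ _ _ _ => rfl
  refine (((s 0 c₀).add (s 1 c₁)).add (s 2 c₂)).congr fun f W _ _ x => ?_
  funext j
  fin_cases j <;> simp <;> ring

end Vale.Agent.P205F
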