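import Vale.Agent.P205F.GoodAlg.LinOp
import Vale.Agent.P205F.GoodAlg.Base
import Vale.Agent.P205F.InterfacesTwist

/-!
# P205, every closed surface: formal transposition

If `φ W = Op (Adj f W)` pointwise then `Lin f (-Opᵗ q / 2) = φ q`, by integration against test
tensors. Replacing `q` by `q / φ` gives the right inverse.
-/

set_option maxSynthPendingDepth 3

namespace Vale.Agent.P205F

open MeasureTheory
open scoped ContDiff RealInnerProductSpace Topology

/-- `∫ ∂h = 0` for compact supports. -/
theorem integral_pd_eq_zero {h : E2 → ℝ} (hh : ContDiff ℝ ∞ h) (hc : HasCompactSupport h)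
    (i : Fin 2) : ∫ x, pd i h x = 0 := by
  have h' : Continuous fun x => fderiv ℝ h x (ev i) :=
    (contDiff_pd hh i).continuous
  have hc' : HasCompactSupport fun x => fderiv ℝ h x (ev i) := hc.fderiv_apply ℝ (ev i)
  have := integral_mul_fderiv_eq_neg_fderiv_mul_of_integrable (μ := (volume : Measure E2))
    (f := fun _ => (1 : ℝ)) (g := h) (v := ev i) (by simp)
    (by simpa using h'.integrable_of_hasCompactSupport hc')
    (by simpa using hh.continuous.integrable_of_hasCompactSupport hc)
    (fun x _ => differentiableAt_const _) (fun x _ => hh.differentiable (by simp) x)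
  simpa [pd] using this

/-- The pairing of symmetric tensors. -/
noncomputable def pairS : S3 →L[ℝ] S3 →L[ℝ] ℝ :=
    ((ContinuousLinearMap.proj (R := ℝ) (φ := fun _ : Fin 3 => ℝ) 0).smulRight
      (ContinuousLinearMap.proj (R := ℝ) (φ := fun _ : Fin 3 => ℝ) 0)
    + (2 : ℝ) • (ContinuousLinearMap.proj (R := ℝ) (φ := fun _ : Fin 3 => ℝ) 1).smulRight
      (ContinuousLinearMap.proj (R := ℝ) (φ := fun _ : Fin 3 => ℝ) 1)
    + (ContinuousLinearMap.proj (R := ℝ) (φ := fun _ : Fin 3 => ℝ) 2).smulRight
      (ContinuousLinearMap.proj (R := ℝ) (φ := fun _ : Fin 3 => ℝ) 2))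

theorem pairS_apply (a b : S3) : pairS a b = a 0 * b 0 + 2 * (a 1 * b 1) + a 2 * b 2 := by
  simp [pairS]

/-- The dual of a derivative. -/
abbrev Dual' (k : ℕ) : Type := ContinuousMultilinearMap ℝ (fun _ : Fin k => E2) R4 →L[ℝ] ℝ

/-- `∂_i` inserted in the first slot. -/
noncomputable def slot (k : ℕ) (i : Fin 2) :
    ContinuousMultilinearMap ℝ (fun _ : Fin k => E2) R4 →L[ℝ]
      ContinuousMultilinearMap ℝ (fun _ : Fin (k + 1) => E2) R4 :=
  (continuousMultilinearCurryLeftEquiv ℝ (fun _ : Fin (k + 1) => E2)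
    R4).symm.toContinuousLinearEquiv.toContinuousLinearMap.comp
    (ContinuousLinearMap.smulRightL ℝ E2 _ (EuclideanSpace.proj (𝕜 := ℝ) i))

theorem iterated_succ_slot {u : E2 → R4} (k : ℕ) (x : E2) :
    iteratedFDeriv ℝ (k + 1) u x =
      slot k 0 (pd 0 (iteratedFDeriv ℝ k u) x) + slot k 1 (pd 1 (iteratedFDeriv ℝ k u) x) := by
  have e : fderiv ℝ (iteratedFDeriv ℝ k u) x =
      (EuclideanSpace.proj (𝕜 := ℝ) (0 : Fin 2)).smulRight (pd 0 (iteratedFDeriv ℝ k u) x)
      + (EuclideanSpace.proj (𝕜 := ℝ) (1 : Fin 2)).smulRight (pd 1 (iteratedFDeriv ℝ k u) x) := by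
    ext v : 1
    have hv : v = v 0 • ev 0 + v 1 • ev 1 := by
      ext j
      fin_cases j <;> simp [ev]
    conv_lhs => rw [hv]
    simp [pd, map_add, map_smul]
  show (continuousMultilinearCurryLeftEquiv ℝ (fun _ : Fin (k + 1) => E2) R4).symm
    (fderiv ℝ (iteratedFDeriv ℝ k u) x) = _
  rw [e, map_add]
  rfl

/-- Transposing `D^k`. -/
theorem exists_transpose : ∀ (k : ℕ) {Φ : (E2 → R4) → (E2 → S3) → E2 → Dual' k}, LinOp Φ →
    ∃ v : (E2 → R4) → (E2 → S3) → E2 → R4, LinOp v ∧
      ∀ f q u, ContDiff ℝ ∞ f → ContDiff ℝ ∞ q → ContDiff ℝ ∞ u → HasCompactSupport u →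
        ∫ x, Φ f q x (iteratedFDeriv ℝ k u x) = ∫ x, ⟪v f q x, u x⟫ := by
  intro k
  induction k with
  | zero =>
    intro Φ hΦ
    set e : Fin 4 → ContinuousMultilinearMap ℝ (fun _ : Fin 0 => E2) R4 := fun j =>
      (continuousMultilinearCurryFin0 ℝ E2 R4).symm (EuclideanSpace.single j (1 : ℝ)) with he
    refine ⟨fun f q x => ∑ j, Φ f q x (e j) • (EuclideanSpace.single j (1 : ℝ) : R4),
      LinOp.sum _ fun j _ => (hΦ.clm ((ContinuousLinearMap.apply ℝ ℝ (e j)).smulRight
        (EuclideanSpace.single j (1 : ℝ) : R4))).congr fun _ _ _ _ _ => rfl,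
      fun f q u _ _ _ _ => integral_congr_ae (Filter.Eventually.of_forall fun x => ?_)⟩
    have hu : iteratedFDeriv ℝ 0 u x = ∑ j, u x j • e j := by
      ext m
      simp [he]
      rename_i j
      fin_cases j <;> simp [Fin.sum_univ_four]
    simp only [hu, map_sum, map_smul, sum_inner, inner_smul_left, EuclideanSpace.inner_single_left]
    simp [mul_comm]
  | succ k ih =>
    intro Φ hΦ
    have h : ∀ i, LinOp fun f q x => ((Φ f q x).comp (slot k i) : Dual' k) := fun i =>
      (hΦ.clm ((ContinuousLinearMap.compL ℝ _ _ ℝ).flip (slot k i))).congr fun _ _ _ _ _ => rfl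
    obtain ⟨v, hv, hve⟩ := ih (((h 0).pd 0).add ((h 1).pd 1)).neg
    refine ⟨v, hv, fun f q u hf hq hu hc => ?_⟩
    rw [← hve f q u hf hq hu hc]
    set U := iteratedFDeriv ℝ k u with hU
    have sU : ContDiff ℝ ∞ U := hu.iteratedFDeriv_right (by exact_mod_cast le_top)
    have cU : HasCompactSupport U := hc.iteratedFDeriv k
    set G : Fin 2 → E2 → Dual' k := fun i x => (Φ f q x).comp (slot k i) with hG
    have sG : ∀ i, ContDiff ℝ ∞ (G i) := fun i => (h i).smooth hf hq
    have prod : ∀ (i : Fin 2) x, pd i (fun z => G i z (U z)) x =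
        pd i (G i) x (U x) + G i x (pd i U x) := fun i x => by
      simp only [pd]
      rw [fderiv_clm_apply ((sG i).differentiable (by simp) x) (sU.differentiable (by simp) x)]
      simp [add_comm]
    have zero : ∀ i, ∫ x, (pd i (G i) x (U x) + G i x (pd i U x)) = 0 := fun i => by
      simp only [← prod]
      refine integral_pd_eq_zero ((sG i).clm_apply sU) (cU.mono' fun x hx => subset_tsupport _ ?_) i
      intro h0
      exact hx (by simp [h0])
    have int : ∀ {g : E2 → Dual' k} {w : E2 → ContinuousMultilinearMap ℝ (fun _ : Fin k => E2) R4},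
        ContDiff ℝ ∞ g → ContDiff ℝ ∞ w → HasCompactSupport w → Integrable fun x => g x (w x) :=
      fun {g w} hg hw hcw => (hg.clm_apply hw).continuous.integrable_of_hasCompactSupport
        (hcw.mono' fun x hx => subset_tsupport _ fun h0 => hx (by simp [h0]))
    have cp : ∀ i, HasCompactSupport fun x => pd i U x := fun i => cU.fderiv_apply ℝ (ev i)
    have i₁ := fun i => int (contDiff_pd (sG i) i) sU cU
    have i₂ := fun i => int (sG i) (contDiff_pd sU i) (cp i)
    have z : ∀ i, ∫ x, pd i (G i) x (U x) = -∫ x, G i x (pd i U x) := fun i => by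
      have := zero i
      rw [integral_add (i₁ i) (i₂ i)] at this
      linarith
    calc ∫ x, Φ f q x (iteratedFDeriv ℝ (k + 1) u x)
        = ∫ x, (G 0 x (pd 0 U x) + G 1 x (pd 1 U x)) := by
          refine integral_congr_ae (Filter.Eventually.of_forall fun x => ?_)
          simp [hG, hU, iterated_succ_slot]
      _ = ∫ x, -(pd 0 (G 0) x (U x) + pd 1 (G 1) x (U x)) := by
          rw [integral_add (i₂ 0) (i₂ 1), integral_neg, integral_add (i₁ 0) (i₁ 1), z 0, z 1]
          ring
      _ = _ := rfl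

theorem integral_pair_Adj {f w : E2 → R4} {W : E2 → S3} (hf : ContDiff ℝ ∞ f)
    (hw : ContDiff ℝ ∞ w) (hW : ContDiff ℝ ∞ W) (hc : HasCompactSupport W) :
    ∫ x, ⟪w x, Adj f W x⟫ = ∫ x, (-(1 / 2) * pairS (Lin f w x) (W x)) := by
  have s : ∀ j, ContDiff ℝ ∞ fun z => W z j := contDiff_pi.1 hW
  set V : Fin 2 → E2 → R4 := ![fun z => W z 0 • pd 0 f z + W z 1 • pd 1 f z,
    fun z => W z 1 • pd 0 f z + W z 2 • pd 1 f z] with hV
  have sV : ∀ i, ContDiff ℝ ∞ (V i) := fun i => by
    fin_cases i
    · exact ((s 0).smul (contDiff_pd hf 0)).add ((s 1).smul (contDiff_pd hf 1))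
    · exact ((s 1).smul (contDiff_pd hf 0)).add ((s 2).smul (contDiff_pd hf 1))
  have cV : ∀ i, HasCompactSupport (V i) := fun i => by
    fin_cases i <;>
    exact hc.mono' fun x hx => subset_tsupport _ fun h0 => hx (by simp [hV, h0])
  have prod : ∀ (i : Fin 2) x, pd i (fun z => ⟪w z, V i z⟫) x =
      ⟪pd i w x, V i x⟫ + ⟪w x, pd i (V i) x⟫ := fun i x => by
    simp only [pd]
    rw [fderiv_inner_apply ℝ (hw.differentiable (by simp) x) ((sV i).differentiable (by simp) x)]
    exact add_comm _ _
  have i₁ : ∀ i, Integrable fun x => ⟪pd i w x, V i x⟫ := fun i =>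
    ((contDiff_pd hw i).inner ℝ (sV i)).continuous.integrable_of_hasCompactSupport
      ((cV i).mono' fun x hx => subset_tsupport _ fun h0 => hx (by simp [h0]))
  have i₂ : ∀ i, Integrable fun x => ⟪w x, pd i (V i) x⟫ := fun i =>
    (hw.inner ℝ (contDiff_pd (sV i) i)).continuous.integrable_of_hasCompactSupport
      (((cV i).fderiv_apply ℝ (ev i)).mono' fun x hx => subset_tsupport _ fun h0 => hx (by
        simp [pd, h0]))
  have z : ∀ i, ∫ x, ⟪w x, pd i (V i) x⟫ = -∫ x, ⟪pd i w x, V i x⟫ := fun i => by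
    have h0 : ∫ x, pd i (fun z => ⟪w z, V i z⟫) x = 0 :=
      integral_pd_eq_zero (hw.inner ℝ (sV i))
        ((cV i).mono' fun x hx => subset_tsupport _ fun h0 => hx (by simp [h0])) i
    simp only [prod] at h0
    rw [integral_add (i₁ i) (i₂ i)] at h0
    linarith
  calc ∫ x, ⟪w x, Adj f W x⟫ = ∫ x, (⟪w x, pd 0 (V 0) x⟫ + ⟪w x, pd 1 (V 1) x⟫) := by
        refine integral_congr_ae (Filter.Eventually.of_forall fun x => ?_)
        simp [Adj, hV, inner_add_right]
    _ = ∫ x, -(⟪pd 0 w x, V 0 x⟫ + ⟪pd 1 w x, V 1 x⟫) := by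
        rw [integral_add (i₂ 0) (i₂ 1), integral_neg, integral_add (i₁ 0) (i₁ 1), z 0, z 1]
        ring
    _ = _ := by
        refine integral_congr_ae (Filter.Eventually.of_forall fun x => ?_)
        simp only [hV, Matrix.cons_val_zero, Matrix.cons_val_one, inner_add_right, inner_smul_right,
          pairS_apply, Lin, Matrix.cons_val]
        rw [real_inner_comm (pd 0 f x) (pd 0 w x), real_inner_comm (pd 1 f x) (pd 0 w x),
          real_inner_comm (pd 0 f x) (pd 1 w x), real_inner_comm (pd 1 f x) (pd 1 w x)]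
        ring

/-- Two continuous fields with the same pairings agree. -/
theorem eq_zero_of_pairings {h : E2 → S3} (hh : Continuous h)
    (H : ∀ W : E2 → S3, ContDiff ℝ ∞ W → HasCompactSupport W → ∫ x, pairS (h x) (W x) = 0)
    (x : E2) : h x = 0 := by
  have comp : ∀ j : Fin 3, (fun x => h x j) = fun _ => 0 := fun j => by
    have hj : Continuous fun x => h x j := (continuous_apply j).comp hh
    refine (hj.ae_eq_iff_eq (volume : Measure E2) continuous_const).1 ?_
    refine ae_eq_zero_of_integral_contDiff_smul_eq_zero hj.locallyIntegrable fun g hg hgc => ?_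
    have := H (fun x => g x • (Pi.single j (1 : ℝ) : S3)) (hg.smul contDiff_const)
      (hgc.smul_right)
    rw [show (fun x => g x • h x j) = fun x => (if j = 1 then 1 / 2 else 1) *
        pairS (h x) (g x • (Pi.single j (1 : ℝ) : S3)) from funext fun x => by
      fin_cases j <;> simp [pairS_apply] <;> ring, integral_const_mul, this, mul_zero]
  funext j
  exact congrFun (comp j) x

/-- The scalar right inverse before division. -/
theorem exists_right_mul (I : Ident) : ∃ R : (E2 → R4) → (E2 → S3) → E2 → R4, LinOp R ∧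
    ∀ f q, ContDiff ℝ ∞ f → ContDiff ℝ ∞ q → ∀ x,
      Lin f (R f q) x = I.den (jet I.N f x) • q x := by
  have hΦ : ∀ k : Fin (I.L + 1), LinOp fun f q x =>
      ((pairS (q x)).comp (I.coef k (jet I.N f x)) : Dual' k) := fun k => by
    have hco : JetFn fun f x => I.coef k (jet I.N f x) :=
      ⟨I.N, I.coef k, I.coef_temperate k, fun _ _ _ => rfl⟩
    refine ((LinOp.id.clm pairS).clmFn (hco.clm ((ContinuousLinearMap.compL ℝ
      (ContinuousMultilinearMap ℝ (fun _ : Fin (k : ℕ) => E2) R4) S3 ℝ).flip))).congr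
      fun _ _ _ _ _ => rfl
  choose v hv hve using fun k => exists_transpose _ (hΦ k)
  refine ⟨fun f q x => (-(1 / 2) : ℝ) • ∑ k, v k f q x,
    (LinOp.sum _ fun k _ => hv k).smul (JetFn.const _), fun f q hf hq x => ?_⟩
  set R := fun x => (-(1 / 2) : ℝ) • ∑ k, v k f q x with hR
  have sv : ∀ k, ContDiff ℝ ∞ (v k f q) := fun k => (hv k).smooth hf hq
  have sR : ContDiff ℝ ∞ R :=
    (ContDiff.sum (s := Finset.univ) fun k _ => sv k).const_smul (-(1 / 2) : ℝ)
  have sd : ContDiff ℝ ∞ fun x => I.den (jet I.N f x) :=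
    I.den_temperate.1.comp (contDiff_jet hf I.N)
  have sL : ContDiff ℝ ∞ (Lin f R) := contDiff_pi.2 fun j => by
    have a := fun i => contDiff_pd hf i
    have b := fun i => contDiff_pd sR i
    fin_cases j
    · exact contDiff_const.mul ((a 0).inner ℝ (b 0))
    · exact ((a 0).inner ℝ (b 1)).add ((a 1).inner ℝ (b 0))
    · exact contDiff_const.mul ((a 1).inner ℝ (b 1))
  refine sub_eq_zero.1 (eq_zero_of_pairings (h := fun x => Lin f R x - I.den (jet I.N f x) • q x)
    (sL.sub (sd.smul hq)).continuous (fun W hW hc => ?_) x)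
  have su : ContDiff ℝ ∞ (Adj f W) := contDiff_Adj hf hW
  have cu : HasCompactSupport (Adj f W) := by
    refine hc.mono' fun x hx => ?_
    by_contra h
    refine hx ?_
    have h₁ : W =ᶠ[𝓝 x] fun _ => 0 := notMem_tsupport_iff_eventuallyEq.1 h
    have : ∀ (a b : Fin 3), (fun z => W z a • pd 0 f z + W z b • pd 1 f z) =ᶠ[𝓝 x]
        fun _ => (0 : R4) := fun a b => h₁.mono fun z hz => by simp [hz]
    show Adj f W x = 0
    unfold Adj pd
    have e₀ := (this 0 1).fderiv_eq (𝕜 := ℝ)
    have e₁ := (this 1 2).fderiv_eq (𝕜 := ℝ)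
    simp only [pd] at e₀ e₁
    simp [e₀, e₁]
  have iv : ∀ k, Integrable fun x => ⟪v k f q x, Adj f W x⟫ := fun k =>
    ((sv k).inner ℝ su).continuous.integrable_of_hasCompactSupport
      (cu.mono' fun x hx => subset_tsupport _ fun h0 => hx (by simp [h0]))
  have cW : ∀ h : E2 → S3, Continuous h → Integrable fun x => pairS (h x) (W x) := fun h hh =>
    ((pairS.continuous.comp hh).clm_apply hW.continuous).integrable_of_hasCompactSupport
      (hc.mono' fun x hx => subset_tsupport _ fun h0 => hx (by simp [h0]))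
  have main : ∫ x, pairS (I.den (jet I.N f x) • q x) (W x) = ∫ x, pairS (Lin f R x) (W x) := by
    calc ∫ x, pairS (I.den (jet I.N f x) • q x) (W x)
        = ∫ x, ∑ k : Fin (I.L + 1),
            pairS (q x) (I.coef k (jet I.N f x) (iteratedFDeriv ℝ (k : ℕ) (Adj f W) x)) := by
          refine integral_congr_ae (Filter.Eventually.of_forall fun x => ?_)
          simp only [← map_sum, ← I.recovers f W hf hW x, map_smul, _root_.smul_apply]
      _ = ∑ k : Fin (I.L + 1), ∫ x, ⟪v k f q x, Adj f W x⟫ := by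
          rw [integral_finsetSum]
          · exact Finset.sum_congr rfl fun k _ => hve k f q _ hf hq su cu
          · intro k _
            exact (((pairS.continuous.comp hq.continuous).clm_apply
              (((I.coef_temperate k).1.continuous.comp (contDiff_jet hf I.N).continuous).clm_apply
                (su.continuous_iteratedFDeriv (by exact_mod_cast le_top)))
              )).integrable_of_hasCompactSupport
              ((cu.iteratedFDeriv (𝕜 := ℝ) (k : ℕ)).mono' fun x hx => subset_tsupport _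
                fun h0 => hx (by simp [h0]))
      _ = -2 * ∫ x, ⟪R x, Adj f W x⟫ := by
          rw [← integral_finsetSum _ fun k _ => iv k, ← integral_const_mul]
          refine integral_congr_ae (Filter.Eventually.of_forall fun x => ?_)
          simp [hR, inner_smul_left, sum_inner]
      _ = _ := by
          rw [integral_pair_Adj hf sR hW hc, ← integral_const_mul]
          refine integral_congr_ae (Filter.Eventually.of_forall fun x => ?_)
          ring
  simp only [map_sub, _root_.sub_apply]
  rw [integral_sub (cW _ sL.continuous) (cW (fun x => I.den (jet I.N f x) • q x)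
    (sd.smul hq).continuous), main, sub_self]

end Vale.Agent.P205F
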